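import Vale.Agent.Lib.P245.PLC2
import Vale.Agent.Lib.P245.Sum

/-!
# P245 M7: the level inequality (blueprint section 6)
-/

open MeasureTheory Real
open scoped InnerProductSpace

namespace Vale.Agent.Lib.P245

variable {n : ℕ}

/-- Pointwise step: the log-Sobolev inequality for the tilted measure, rewritten with `ell`. -/
lemma ell_pointwise {ρ : E n → ℝ} (hρ : LC ρ) {μ : Measure (E n)} [IsProbabilityMeasure μ]
    (hμ : μ = volume.withDensity (fun x => ENNReal.ofReal (ρ x))) {b : ℝ} (h : SG μ b)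
    {g : E n → ℝ} {D : E n → E n} {K Cg CD : ℝ} (hgm : Measurable g) (hDm : Measurable D)
    (hgb : ∀ x, |g x| ≤ Cg) (hDb : ∀ x, ‖D x‖ ≤ CD)
    (hT : ∀ x z, g x ≤ g z + ⟪D z, x - z⟫_ℝ + K * ‖x - z‖ ^ 2)
    {B : ℝ} (hBdd : Bdd (fun x => exp (g x)) B) {s : ℝ} (hs : 0 < s) (θ : E n) :
    KK μ (fun x => exp (g x)) s θ * ell μ (fun x => exp (g x)) s θ ≤
      (1 / (2 * s)) * ∫ x, exp (g x) * wt s θ x * ‖D x‖ ^ 2 ∂μ := by
  have := tilt_prob h hs θ
  have hK0 : 0 < KK μ one s θ := KK_one_pos h hs θ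
  have hKF : 0 < KK μ (fun x => exp (g x)) s θ := KK_pos h hBdd hs θ
  have hlsi := lsi_tilt hρ hμ hs θ hgm hDm hgb hDb hT
  set M : ℝ := KK μ (fun x => exp (g x)) s θ / KK μ one s θ with hMdef
  have hMpos : 0 < M := div_pos hKF hK0
  have hM : ∫ x, exp (g x) ∂(tilt μ s θ) = M := integral_tilt h hs θ _
  -- integrability on the probability measure `tilt μ s θ`
  have hCg : 0 ≤ Cg := (abs_nonneg _).trans (hgb 0)
  have hexp_bd : ∀ x, exp (g x) ≤ exp Cg := fun x => exp_le_exp.mpr ((le_abs_self _).trans (hgb x))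
  have hint_exp : Integrable (fun x => exp (g x)) (tilt μ s θ) := by
    refine Integrable.of_bound hgm.exp.aestronglyMeasurable (exp Cg) (Filter.Eventually.of_forall ?_)
    intro x
    rw [Real.norm_eq_abs, abs_of_pos (exp_pos _)]
    exact hexp_bd x
  have hint_gexp : Integrable (fun x => g x * exp (g x)) (tilt μ s θ) := by
    refine Integrable.of_bound (hgm.mul hgm.exp).aestronglyMeasurable (Cg * exp Cg)
      (Filter.Eventually.of_forall ?_)
    intro x
    rw [Real.norm_eq_abs, abs_mul, abs_of_pos (exp_pos _)]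
    exact mul_le_mul (hgb x) (hexp_bd x) (exp_pos _).le hCg
  -- the entropy expansion
  have hell : ell μ (fun x => exp (g x)) s θ
      = (∫ x, g x * exp (g x) ∂(tilt μ s θ) - M * log M) / M := by
    unfold ell
    have hpt : ∀ x, Gth μ (fun x => exp (g x)) s θ x * log (Gth μ (fun x => exp (g x)) s θ x)
        = (g x * exp (g x) - log M * exp (g x)) / M := by
      intro x
      have : Gth μ (fun x => exp (g x)) s θ x = exp (g x) / M := rfl
      rw [this, log_div (exp_pos _).ne' hMpos.ne', log_exp]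
      field_simp
    simp_rw [hpt]
    rw [integral_div, integral_sub hint_gexp (hint_exp.const_mul _), integral_const_mul, hM]
    ring
  have hH : ∫ x, ‖D x‖ ^ 2 * exp (g x) ∂(tilt μ s θ)
      = (∫ x, exp (g x) * wt s θ x * ‖D x‖ ^ 2 ∂μ) / KK μ one s θ := by
    rw [integral_tilt h hs θ]
    unfold KK
    congr 1
    refine integral_congr_ae (Filter.Eventually.of_forall fun x => ?_)
    simp only
    ring
  rw [hM, hH] at hlsi
  have hKF_eq : KK μ (fun x => exp (g x)) s θ = KK μ one s θ * M := by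
    rw [hMdef]; field_simp
  rw [hell, hKF_eq]
  have h1 : KK μ one s θ * M * ((∫ x, g x * exp (g x) ∂(tilt μ s θ) - M * log M) / M)
      = KK μ one s θ * (∫ x, g x * exp (g x) ∂(tilt μ s θ) - M * log M) := by
    field_simp
  rw [h1]
  have h2 := mul_le_mul_of_nonneg_left hlsi hK0.le
  refine h2.trans (le_of_eq ?_)
  field_simp

/-- Integrated form: for every `s > 0`, `L - WW ≤ J / (2 s)`. -/
lemma level_integrated {ρ : E n → ℝ} (hρ : LC ρ) {μ : Measure (E n)} [IsProbabilityMeasure μ]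
    (hμ : μ = volume.withDensity (fun x => ENNReal.ofReal (ρ x))) {b : ℝ} (h : SG μ b)
    {g : E n → ℝ} {D : E n → E n} {K Cg CD : ℝ} (hgm : Measurable g) (hDm : Measurable D)
    (hgb : ∀ x, |g x| ≤ Cg) (hDb : ∀ x, ‖D x‖ ≤ CD)
    (hT : ∀ x z, g x ≤ g z + ⟪D z, x - z⟫_ℝ + K * ‖x - z‖ ^ 2)
    {B : ℝ} (hBdd : Bdd (fun x => exp (g x)) B)
    {s : ℝ} (hs : 0 < s) :
    (∫ x, g x * exp (g x) ∂μ) - WW μ (fun x => exp (g x)) s
      ≤ (1 / (2 * s)) * ∫ x, ‖D x‖ ^ 2 * exp (g x) ∂μ := by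
  obtain ⟨hint1, heq1⟩ := ell_identity h hBdd hs
  have hlogF : ∀ x, exp (g x) * log (exp (g x)) = g x * exp (g x) := by
    intro x; rw [log_exp]; ring
  simp_rw [hlogF] at heq1
  have hTm : Measurable (Function.uncurry fun (_ x : E n) => ‖D x‖ ^ 2) := by
    have : Measurable fun p : E n × E n => ‖D p.2‖ ^ 2 := (hDm.comp measurable_snd).norm.pow_const 2
    exact this
  have hTb : ∀ θ x : E n, |(fun (_ x : E n) => ‖D x‖ ^ 2) θ x| ≤ CD ^ 2 := by
    intro _ x
    have h0 : ‖D x‖ ^ 2 ≤ CD ^ 2 := pow_le_pow_left₀ (norm_nonneg _) (hDb x) 2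
    simpa [abs_of_nonneg (pow_nonneg (norm_nonneg (D x)) 2)] using h0
  have hFb : ∀ x, |exp (g x)| ≤ B := fun x => by
    rw [abs_of_pos (exp_pos _)]
    exact hBdd.hi x
  obtain ⟨hint2, heq2⟩ := mix_formula h hBdd.meas hFb hs hTm hTb
  have hRHS : ∫ x, exp (g x) * (∫ θ, gk s (θ - s • x) * ‖D x‖ ^ 2) ∂μ
      = ∫ x, ‖D x‖ ^ 2 * exp (g x) ∂μ := by
    refine integral_congr_ae (Filter.Eventually.of_forall fun x => ?_)
    have : ∫ θ, gk s (θ - s • x) = 1 := by
      rw [integral_sub_right_eq_self (fun θ => gk (n := n) s θ) (s • x)]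
      exact integral_gk hs
    simp only
    rw [integral_mul_const, this]
    ring
  have hpt : ∀ θ, gk s θ * KK μ (fun x => exp (g x)) s θ * ell μ (fun x => exp (g x)) s θ
      ≤ (1 / (2 * s)) * (gk s θ * ∫ x, exp (g x) * wt s θ x * ‖D x‖ ^ 2 ∂μ) := by
    intro θ
    have := ell_pointwise hρ hμ h hgm hDm hgb hDb hT hBdd hs θ
    have h2 := mul_le_mul_of_nonneg_left this (gk_pos hs θ).le
    calc gk s θ * KK μ (fun x => exp (g x)) s θ * ell μ (fun x => exp (g x)) s θ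
        = gk s θ * (KK μ (fun x => exp (g x)) s θ * ell μ (fun x => exp (g x)) s θ) := by ring
      _ ≤ _ := h2
      _ = _ := by ring
  calc (∫ x, g x * exp (g x) ∂μ) - WW μ (fun x => exp (g x)) s
      = ∫ θ, gk s θ * KK μ (fun x => exp (g x)) s θ * ell μ (fun x => exp (g x)) s θ := heq1.symm
    _ ≤ ∫ θ, (1 / (2 * s)) * (gk s θ * ∫ x, exp (g x) * wt s θ x * ‖D x‖ ^ 2 ∂μ) :=
        integral_mono hint1 (hint2.const_mul _) hpt
    _ = (1 / (2 * s)) * ∫ x, ‖D x‖ ^ 2 * exp (g x) ∂μ := by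
        rw [integral_const_mul]
        exact congrArg _ (heq2.trans hRHS)

/-- Blueprint section 6. -/
theorem level_main {ρ : E n → ℝ} (hρ : LC ρ) {μ : Measure (E n)} [IsProbabilityMeasure μ]
    (hμ : μ = volume.withDensity (fun x => ENNReal.ofReal (ρ x))) {b : ℝ} (h : SG μ b)
    {g : E n → ℝ} {D : E n → E n} {K Cg CD : ℝ} (hgm : Measurable g) (hDm : Measurable D)
    (hgb : ∀ x, |g x| ≤ Cg) (hDb : ∀ x, ‖D x‖ ≤ CD)
    (hT : ∀ x z, g x ≤ g z + ⟪D z, x - z⟫_ℝ + K * ‖x - z‖ ^ 2)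
    (hg1 : ∫ x, exp (g x) ∂μ = 1) {L : ℝ} (hL : L = ∫ x, g x * exp (g x) ∂μ) (hLpos : 0 < L) :
    L ≤ b * max 32 (23 * Real.sqrt (n / L)) * ∫ x, ‖D x‖ ^ 2 * exp (g x) ∂μ := by
  have hb : 0 < b := h.pos
  have hCg : 0 ≤ Cg := (abs_nonneg _).trans (hgb 0)
  have hBdd : Bdd (fun x => exp (g x)) (exp Cg) := by
    refine ⟨hgm.exp, one_le_exp hCg, fun x => ?_, fun x => ?_⟩
    · rw [← exp_neg]
      exact exp_le_exp.mpr (by have := abs_le.mp (hgb x); linarith [this.1])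
    · exact exp_le_exp.mpr ((le_abs_self _).trans (hgb x))
  set m : ℝ := max 32 (23 * Real.sqrt (n / L)) with hm
  have hm32 : 32 ≤ m := le_max_left _ _
  have hmpos : 0 < m := by linarith
  -- `n / m² ≤ L / 529`
  have hnm : (n : ℝ) * (1 / m) ^ 2 ≤ L / 529 := by
    have h1 : 23 * Real.sqrt (n / L) ≤ m := le_max_right _ _
    have h2 : (23 * Real.sqrt (n / L)) ^ 2 ≤ m ^ 2 :=
      pow_le_pow_left₀ (by positivity) h1 2
    have h3 : (Real.sqrt (n / L)) ^ 2 = n / L := Real.sq_sqrt (by positivity)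
    have h4 : 529 * ((n : ℝ) / L) ≤ m ^ 2 := by nlinarith
    have h5 : 529 * (n : ℝ) ≤ m ^ 2 * L := by
      have := mul_le_mul_of_nonneg_right h4 hLpos.le
      have e : 529 * ((n : ℝ) / L) * L = 529 * n := by field_simp
      linarith
    rw [one_div, inv_pow, ← div_eq_mul_inv, div_le_div_iff₀ (by positivity) (by norm_num)]
    nlinarith
  set σ : ℝ := 1 / m with hσ
  have hσpos : 0 < σ := by positivity
  have hσle : σ ≤ 1 / 32 := by
    rw [hσ]; exact one_div_le_one_div_of_le (by norm_num) hm32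
  set s : ℝ := σ / b with hs
  have hspos : 0 < s := div_pos hσpos hb
  have hbs : b * s = σ := by rw [hs]; field_simp
  have hF1 := level_integrated hρ hμ h hgm hDm hgb hDb hT hBdd hspos
  have hWW := WW_le h hBdd hg1 hspos
  have hlogF : ∀ x, exp (g x) * log (exp (g x)) = g x * exp (g x) := by
    intro x; rw [log_exp]; ring
  simp_rw [hlogF, ← hL] at hWW
  rw [← hL] at hF1
  -- `WW ≤ L / 2`
  have hWW2 : WW μ (fun x => exp (g x)) s ≤ L / 2 := by
    have e : s * (8 * b * (L + 32 * b ^ 2 * s ^ 2 * (L + n / 2) + 12 * b * n * s))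
        = 8 * σ * L + 256 * σ ^ 3 * (L + n / 2) + 96 * n * σ ^ 2 := by
      rw [← hbs]; ring
    rw [e] at hWW
    have hσ2 : σ ^ 2 ≤ (1 / 32) ^ 2 := pow_le_pow_left₀ hσpos.le hσle 2
    have hσ3 : σ ^ 3 ≤ (1 / 32) ^ 3 := pow_le_pow_left₀ hσpos.le hσle 3
    have hn0 : (0 : ℝ) ≤ n := Nat.cast_nonneg n
    have t1 : 8 * σ * L ≤ L / 4 := by nlinarith
    have t2 : 256 * σ ^ 3 * L ≤ L / 128 := by nlinarith
    have t3 : 128 * (n : ℝ) * σ ^ 3 ≤ 4 * ((n : ℝ) * σ ^ 2) := by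
      have : (n : ℝ) * σ ^ 2 * σ ≤ (n : ℝ) * σ ^ 2 * (1 / 32) :=
        mul_le_mul_of_nonneg_left hσle (by positivity)
      nlinarith
    have t4 : (n : ℝ) * σ ^ 2 ≤ L / 529 := hnm
    nlinarith
  have hs2 : 1 / (2 * s) = b * m / 2 := by
    rw [hs, hσ]; field_simp
  rw [hs2] at hF1
  have : L / 2 ≤ b * m / 2 * ∫ x, ‖D x‖ ^ 2 * exp (g x) ∂μ := by linarith
  nlinarith

end Vale.Agent.Lib.P245
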