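import Vale.Agent.Lib.P245.Defs
import Vale.Agent.Lib.P248.PL4

/-!
# P245, module M4a: Prekopa-Leindler on `E n` and the midpoint inequality
-/

open MeasureTheory Real Set
open scoped InnerProductSpace ENNReal

namespace Vale.Agent.Lib.P245

variable {n : ℕ}

/-- Prekopa-Leindler on Euclidean space with weight `t`. -/
theorem pl_E {f g h : E n → ℝ≥0∞} (hf : Measurable f) (hg : Measurable g) (hh : Measurable h)
    {t : ℝ} (h0 : 0 < t) (h1 : t < 1)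
    (H : ∀ x y, f x ^ t * g y ^ (1 - t) ≤ h (t • x + (1 - t) • y)) :
    (∫⁻ x, f x) ^ t * (∫⁻ x, g x) ^ (1 - t) ≤ ∫⁻ x, h x := by
  have mp := PiLp.volume_preserving_toLp (Fin n)
  have hΦ : Measurable (WithLp.toLp 2 : (Fin n → ℝ) → E n) := mp.measurable
  have red : ∀ F : E n → ℝ≥0∞, Measurable F → ∫⁻ x, F x = ∫⁻ x, F (WithLp.toLp 2 x) := by
    intro F hF
    exact (mp.lintegral_comp hF).symm
  rw [red f hf, red g hg, red h hh]
  refine Vale.Agent.Lib.P248.prekopa_leindler (V := Fin n)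
    (f := fun x => f (WithLp.toLp 2 x)) (g := fun x => g (WithLp.toLp 2 x))
    (h := fun x => h (WithLp.toLp 2 x)) (hf.comp hΦ) (hg.comp hΦ) (hh.comp hΦ) h0 h1 ?_
  intro x y
  have e : WithLp.toLp 2 (t • x + (1 - t) • y) =
      t • (WithLp.toLp 2 x : E n) + (1 - t) • (WithLp.toLp 2 y : E n) := rfl
  simp only [e]
  exact H _ _

lemma plc_wt_pos (s : ℝ) (θ x : E n) : 0 < wt s θ x := exp_pos _

lemma plc_continuous_wt (s : ℝ) (θ : E n) : Continuous (wt (n := n) s θ) := by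
  unfold wt
  fun_prop

lemma plc_measurable_wt (s : ℝ) (θ : E n) : Measurable (wt (n := n) s θ) :=
  (plc_continuous_wt s θ).measurable

/-- Young in the form `⟪v,d⟫ - s |d|²/2 ≤ |v|²/(2s)`. -/
lemma inner_sub_le {s : ℝ} (hs : 0 < s) (v d : E n) :
    ⟪v, d⟫_ℝ - s * ‖d‖ ^ 2 / 2 ≤ ‖v‖ ^ 2 / (2 * s) := by
  have h1 : ⟪v, d⟫_ℝ ≤ ‖v‖ * ‖d‖ := real_inner_le_norm v d
  have h2 : 0 ≤ (‖v‖ - s * ‖d‖) ^ 2 := sq_nonneg _
  rw [le_div_iff₀ (by positivity)]
  nlinarith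

/-- The weight is bounded. -/
lemma plc_wt_le {s : ℝ} (hs : 0 < s) (θ x : E n) : wt s θ x ≤ exp (‖θ‖ ^ 2 / (2 * s)) :=
  exp_le_exp.mpr (inner_sub_le hs θ x)

lemma integrable_wt {μ : Measure (E n)} [IsFiniteMeasure μ] {s : ℝ} (hs : 0 < s) (θ : E n) :
    Integrable (wt s θ) μ := by
  refine Integrable.of_bound (plc_measurable_wt s θ).aestronglyMeasurable (exp (‖θ‖ ^ 2 / (2 * s))) ?_
  refine Filter.Eventually.of_forall fun x => ?_
  rw [Real.norm_of_nonneg (plc_wt_pos s θ x).le]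
  exact plc_wt_le hs θ x

lemma KK_one_eq (μ : Measure (E n)) (s : ℝ) (θ : E n) :
    KK μ one s θ = ∫ x, wt s θ x ∂μ := by
  simp [KK, one]

lemma KK_one_pos' {μ : Measure (E n)} [IsProbabilityMeasure μ] {s : ℝ} (hs : 0 < s) (θ : E n) :
    0 < KK μ one s θ := by
  rw [KK_one_eq, integral_pos_iff_support_of_nonneg (fun x => (plc_wt_pos s θ x).le)
    (integrable_wt hs θ)]
  have : Function.support (wt (n := n) s θ) = univ := by
    ext x
    simp [Function.mem_support, (plc_wt_pos s θ x).ne']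
  rw [this]
  simp

/-- Integrals against a measure with log-concave density, as lower integrals. -/
lemma lintegral_rho {ρ : E n → ℝ} (hρ : LC ρ) {μ : Measure (E n)}
    (hμ : μ = volume.withDensity (fun x => ENNReal.ofReal (ρ x)))
    {h : E n → ℝ} (hh : Measurable h) :
    ∫⁻ x, ENNReal.ofReal (ρ x * h x) = ∫⁻ x, ENNReal.ofReal (h x) ∂μ := by
  rw [hμ, lintegral_withDensity_eq_lintegral_mul _ hρ.2.1.ennreal_ofReal hh.ennreal_ofReal]
  refine lintegral_congr fun x => ?_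
  simp only [Pi.mul_apply]
  rw [ENNReal.ofReal_mul (hρ.1 x)]

lemma inner_pp (θ v m d : E n) :
    ⟪θ + v, m + d⟫_ℝ = ⟪θ, m⟫_ℝ + ⟪θ, d⟫_ℝ + ⟪v, m⟫_ℝ + ⟪v, d⟫_ℝ := by
  rw [inner_add_left, inner_add_right, inner_add_right]
  ring

lemma inner_mm (θ v m d : E n) :
    ⟪θ - v, m - d⟫_ℝ = ⟪θ, m⟫_ℝ - ⟪θ, d⟫_ℝ - ⟪v, m⟫_ℝ + ⟪v, d⟫_ℝ := by
  rw [inner_sub_left, inner_sub_right, inner_sub_right]
  ring

/-- The midpoint inequality for exponential tilts of a log-concave density. -/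
theorem mid_of_LC {ρ : E n → ℝ} (hρ : LC ρ) {μ : Measure (E n)} [IsProbabilityMeasure μ]
    (hμ : μ = volume.withDensity (fun x => ENNReal.ofReal (ρ x)))
    {s : ℝ} (hs : 0 < s) (θ v : E n) :
    KK μ one s (θ + v) * KK μ one s (θ - v) ≤ KK μ one s θ ^ 2 * exp (‖v‖ ^ 2 / s) := by
  set c : ℝ := exp (‖v‖ ^ 2 / (2 * s)) with hc
  have hcpos : 0 < c := exp_pos _
  -- lower integrals
  have key : ∀ u : E n, ∫⁻ x, ENNReal.ofReal (ρ x * wt s u x) = ENNReal.ofReal (KK μ one s u) := by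
    intro u
    rw [lintegral_rho hρ hμ (plc_measurable_wt s u), KK_one_eq,
      ofReal_integral_eq_lintegral_ofReal (integrable_wt hs u)
        (Filter.Eventually.of_forall fun x => (plc_wt_pos s u x).le)]
  have h12 : (0 : ℝ) < 1 / 2 := by norm_num
  have h12' : (1 / 2 : ℝ) < 1 := by norm_num
  have hPL := pl_E (n := n) (t := 1 / 2)
    (f := fun x => ENNReal.ofReal (ρ x * wt s (θ + v) x))
    (g := fun x => ENNReal.ofReal (ρ x * wt s (θ - v) x))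
    (h := fun x => ENNReal.ofReal (ρ x * (wt s θ x * c)))
    (hρ.2.1.mul (plc_measurable_wt s _)).ennreal_ofReal
    (hρ.2.1.mul (plc_measurable_wt s _)).ennreal_ofReal
    (hρ.2.1.mul ((plc_measurable_wt s _).mul_const c)).ennreal_ofReal h12 h12' ?_
  · have e3 : ∫⁻ x, ENNReal.ofReal (ρ x * (wt s θ x * c)) = ENNReal.ofReal (KK μ one s θ * c) := by
      have : ∀ x, ρ x * (wt s θ x * c) = ρ x * (wt s θ x) * c := fun x => by ring
      simp only [this]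
      have hmeas : Measurable (fun x => ENNReal.ofReal (ρ x * wt s θ x)) :=
        (hρ.2.1.mul (plc_measurable_wt s _)).ennreal_ofReal
      rw [ENNReal.ofReal_mul (KK_one_pos' hs θ).le, ← key θ, ← lintegral_mul_const _ hmeas]
      refine lintegral_congr fun x => ?_
      rw [ENNReal.ofReal_mul (mul_nonneg (hρ.1 x) (plc_wt_pos s θ x).le)]
    rw [key, key, e3] at hPL
    have hA := (KK_one_pos' (μ := μ) hs (θ + v)).le
    have hB := (KK_one_pos' (μ := μ) hs (θ - v)).le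
    have hC := (KK_one_pos' (μ := μ) hs θ)
    rw [ENNReal.ofReal_rpow_of_nonneg hA h12.le, ENNReal.ofReal_rpow_of_nonneg hB (by norm_num),
      ← ENNReal.ofReal_mul (by positivity),
      ENNReal.ofReal_le_ofReal_iff (by positivity)] at hPL
    norm_num at hPL
    have hsq := mul_self_le_mul_self (by positivity) hPL
    have e1 : KK μ one s (θ + v) ^ (1 / 2 : ℝ) * KK μ one s (θ - v) ^ (1 / 2 : ℝ) *
        (KK μ one s (θ + v) ^ (1 / 2 : ℝ) * KK μ one s (θ - v) ^ (1 / 2 : ℝ)) =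
        KK μ one s (θ + v) * KK μ one s (θ - v) := by
      have a1 : KK μ one s (θ + v) ^ (1 / 2 : ℝ) * KK μ one s (θ + v) ^ (1 / 2 : ℝ) =
          KK μ one s (θ + v) := by
        rw [← rpow_add' hA (by norm_num)]
        norm_num
      have a2 : KK μ one s (θ - v) ^ (1 / 2 : ℝ) * KK μ one s (θ - v) ^ (1 / 2 : ℝ) =
          KK μ one s (θ - v) := by
        rw [← rpow_add' hB (by norm_num)]
        norm_num
      calc _ = (KK μ one s (θ + v) ^ (1 / 2 : ℝ) * KK μ one s (θ + v) ^ (1 / 2 : ℝ)) *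
            (KK μ one s (θ - v) ^ (1 / 2 : ℝ) * KK μ one s (θ - v) ^ (1 / 2 : ℝ)) := by ring
        _ = _ := by rw [a1, a2]
    rw [e1] at hsq
    have e2 : exp (‖v‖ ^ 2 / s) = c * c := by
      rw [hc, ← exp_add]
      congr 1
      field_simp
      ring
    rw [e2]
    calc _ ≤ _ := hsq
      _ = _ := by ring
  · intro x y
    rw [ENNReal.ofReal_rpow_of_nonneg (mul_nonneg (hρ.1 x) (plc_wt_pos _ _ _).le) h12.le,
      ENNReal.ofReal_rpow_of_nonneg (mul_nonneg (hρ.1 y) (plc_wt_pos _ _ _).le) (by norm_num),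
      ← ENNReal.ofReal_mul (rpow_nonneg (mul_nonneg (hρ.1 x) (plc_wt_pos _ _ _).le) _)]
    refine ENNReal.ofReal_le_ofReal ?_
    have hlc := hρ.2.2 x y (1 / 2) h12 h12'
    set m : E n := (1 / 2 : ℝ) • x + (1 - 1 / 2 : ℝ) • y with hm
    set d : E n := (1 / 2 : ℝ) • x - (1 / 2 : ℝ) • y with hd
    have hm' : m = (1 / 2 : ℝ) • x + (1 / 2 : ℝ) • y := by
      rw [hm]; norm_num
    have hx : x = m + d := by
      rw [hm', hd]
      ext i
      simp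
      ring
    have hy : y = m - d := by
      rw [hm', hd]
      ext i
      simp
      ring
    have hw : wt s (θ + v) x ^ (1 / 2 : ℝ) * wt s (θ - v) y ^ (1 - 1 / 2 : ℝ) ≤ wt s θ m * c := by
      unfold wt
      rw [hc, ← exp_add, ← exp_mul, ← exp_mul, ← exp_add]
      refine exp_le_exp.mpr ?_
      have hyg := inner_sub_le hs v d
      have nx : ‖x‖ ^ 2 = ‖m‖ ^ 2 + 2 * ⟪m, d⟫_ℝ + ‖d‖ ^ 2 := by
        calc ‖x‖ ^ 2 = ‖m + d‖ ^ 2 := by rw [← hx]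
          _ = _ := norm_add_sq_real m d
      have ny : ‖y‖ ^ 2 = ‖m‖ ^ 2 - 2 * ⟪m, d⟫_ℝ + ‖d‖ ^ 2 := by
        calc ‖y‖ ^ 2 = ‖m - d‖ ^ 2 := by rw [← hy]
          _ = _ := norm_sub_sq_real m d
      have ix : ⟪θ + v, x⟫_ℝ = ⟪θ, m⟫_ℝ + ⟪θ, d⟫_ℝ + ⟪v, m⟫_ℝ + ⟪v, d⟫_ℝ := by
        calc ⟪θ + v, x⟫_ℝ = ⟪θ + v, m + d⟫_ℝ := by rw [← hx]
          _ = _ := inner_pp θ v m d
      have iy : ⟪θ - v, y⟫_ℝ = ⟪θ, m⟫_ℝ - ⟪θ, d⟫_ℝ - ⟪v, m⟫_ℝ + ⟪v, d⟫_ℝ := by
        calc ⟪θ - v, y⟫_ℝ = ⟪θ - v, m - d⟫_ℝ := by rw [← hy]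
          _ = _ := inner_mm θ v m d
      rw [nx, ny, ix, iy]
      nlinarith
    have hρm : ρ x ^ (1 / 2 : ℝ) * ρ y ^ (1 - 1 / 2 : ℝ) ≤ ρ m := hlc
    rw [mul_rpow (hρ.1 x) (plc_wt_pos _ _ _).le, mul_rpow (hρ.1 y) (plc_wt_pos _ _ _).le]
    calc _ = (ρ x ^ (1 / 2 : ℝ) * ρ y ^ (1 - 1 / 2 : ℝ)) *
          (wt s (θ + v) x ^ (1 / 2 : ℝ) * wt s (θ - v) y ^ (1 - 1 / 2 : ℝ)) := by ring
      _ ≤ ρ m * (wt s θ m * c) := by
          apply mul_le_mul hρm hw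
          · exact mul_nonneg (rpow_nonneg (plc_wt_pos _ _ _).le _) (rpow_nonneg (plc_wt_pos _ _ _).le _)
          · exact hρ.1 m

end Vale.Agent.Lib.P245
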