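import Vale.Agent.Lib.P245.PLC

/-!
# P245: from the hypotheses of the problem to the standing assumptions

`LC_of_density`: a log-concave density in the sense of the problem is log-concave in multiplicative
form.  `mgf_of_subgaussian`: linear subgaussianity with the centering gives the bound
`E exp ⟪v, x⟫ ≤ exp (a ^ 2 * ‖v‖ ^ 2)`.
-/

open MeasureTheory Real
open scoped InnerProductSpace

namespace Vale.Agent.Lib.P245

variable {n : ℕ}

/-- M8a : a log-concave density is log-concave in multiplicative form. -/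
theorem LC_of_density {ρ : E n → ℝ} (h : IsLogConcaveDensity ρ) : LC ρ := by
  obtain ⟨hm, h0, hconv, hconc⟩ := h
  refine ⟨h0, hm, ?_⟩
  intro x y t ht0 ht1
  have ht1' : 0 < 1 - t := by linarith
  rcases (h0 x).eq_or_lt with hx | hx
  · rw [← hx, Real.zero_rpow ht0.ne', zero_mul]; exact h0 _
  rcases (h0 y).eq_or_lt with hy | hy
  · rw [← hy, Real.zero_rpow ht1'.ne', mul_zero]; exact h0 _
  have hxm : x ∈ {x | 0 < ρ x} := hx
  have hym : y ∈ {x | 0 < ρ x} := hy
  have hmem : t • x + (1 - t) • y ∈ {x | 0 < ρ x} :=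
    hconv hxm hym ht0.le ht1'.le (by ring)
  have hc := hconc.2 hxm hym ht0.le ht1'.le (by ring)
  simp only [smul_eq_mul] at hc
  have hmem' : 0 < ρ (t • x + (1 - t) • y) := hmem
  have key : ρ x ^ t * ρ y ^ (1 - t) = exp (t * log (ρ x) + (1 - t) * log (ρ y)) := by
    rw [Real.exp_add, Real.rpow_def_of_pos hx, Real.rpow_def_of_pos hy]
    ring_nf
  rw [key, ← Real.exp_log hmem']
  exact Real.exp_le_exp.mpr hc

/-- `e ^ w ≤ w + e ^ (w ^ 2)`. -/
lemma exp_le_add_exp_sq (w : ℝ) : exp w ≤ w + exp (w ^ 2) := by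
  have h1 : w ^ 2 + 1 ≤ exp (w ^ 2) := Real.add_one_le_exp _
  by_cases hw : |w| ≤ 1
  · have h2 := Real.abs_exp_sub_one_sub_id_le hw
    have h3 := (abs_le.mp h2).2
    linarith
  · push Not at hw
    rcases lt_abs.mp hw with h | h
    · have h2 : w ≤ w ^ 2 := by nlinarith
      have h3 := Real.exp_le_exp.mpr h2
      linarith
    · have h2 : exp w ≤ 1 := by
        rw [Real.exp_le_one_iff]; linarith
      nlinarith

lemma two_rpow_le_exp {p : ℝ} (hp : 0 ≤ p) : (2 : ℝ) ^ p ≤ exp p := by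
  rw [Real.rpow_def_of_pos (by norm_num : (0 : ℝ) < 2)]
  apply Real.exp_le_exp.mpr
  have := Real.log_two_lt_d9
  nlinarith

section
variable {μ : Measure (E n)} [IsProbabilityMeasure μ]

/-- Jensen for the power `p`, in exponential form. -/
lemma integrable_exp_mul_of_le {Z : E n → ℝ} (hZm : Measurable Z) (hZ : Integrable (fun x => exp (Z x)) μ)
    {p : ℝ} (hp0 : 0 < p) (hp1 : p ≤ 1) : Integrable (fun x => exp (p * Z x)) μ := by
  have hdom : Integrable (fun x => p * exp (Z x) + (1 - p)) μ :=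
    (hZ.const_mul p).add (integrable_const _)
  refine hdom.mono' (by fun_prop) (Filter.Eventually.of_forall fun x => ?_)
  rw [Real.norm_eq_abs, abs_of_pos (Real.exp_pos _)]
  have h := Real.geom_mean_le_arith_mean2_weighted hp0.le (by linarith : 0 ≤ 1 - p)
    (Real.exp_pos (Z x)).le (zero_le_one) (by ring)
  rw [Real.one_rpow, mul_one, ← Real.exp_mul] at h
  have e : Z x * p = p * Z x := by ring
  rw [e] at h
  linarith

lemma integral_exp_mul_le {Z : E n → ℝ} (hZm : Measurable Z) (hZ : Integrable (fun x => exp (Z x)) μ)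
    (hZ2 : ∫ x, exp (Z x) ∂μ ≤ 2) {p : ℝ} (hp0 : 0 < p) (hp1 : p ≤ 1) :
    ∫ x, exp (p * Z x) ∂μ ≤ 2 ^ p := by
  have h2p : (0 : ℝ) < 2 ^ p := Real.rpow_pos_of_pos (by norm_num) _
  have hpt : ∀ x, exp (p * Z x) ≤ 2 ^ p * (p * (exp (Z x) / 2) + (1 - p)) := by
    intro x
    have h := Real.geom_mean_le_arith_mean2_weighted hp0.le (by linarith : 0 ≤ 1 - p)
      (by positivity : 0 ≤ exp (Z x) / 2) (zero_le_one) (by ring)
    rw [Real.one_rpow, mul_one, Real.div_rpow (Real.exp_pos _).le (by norm_num), ← Real.exp_mul] at h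
    have e : Z x * p = p * Z x := by ring
    rw [e] at h
    calc exp (p * Z x) = 2 ^ p * (exp (p * Z x) / 2 ^ p) := by field_simp
      _ ≤ 2 ^ p * (p * (exp (Z x) / 2) + (1 - p) * 1) := by gcongr
      _ = _ := by ring
  have hint : Integrable (fun x => 2 ^ p * (p * (exp (Z x) / 2) + (1 - p))) μ :=
    (((hZ.div_const 2).const_mul p).add (integrable_const _)).const_mul _
  calc ∫ x, exp (p * Z x) ∂μ ≤ ∫ x, 2 ^ p * (p * (exp (Z x) / 2) + (1 - p)) ∂μ :=
        integral_mono (integrable_exp_mul_of_le hZm hZ hp0 hp1) hint hpt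
    _ = 2 ^ p * (p * ((∫ x, exp (Z x) ∂μ) / 2) + (1 - p)) := by
        rw [integral_const_mul, integral_add ((hZ.div_const 2).const_mul p) (integrable_const _),
          integral_const_mul, integral_div, integral_const]
        simp
    _ ≤ 2 ^ p * (p * (2 / 2) + (1 - p)) := by gcongr
    _ = 2 ^ p := by ring

omit [IsProbabilityMeasure μ] in
lemma integrable_inner_of_sub {a : ℝ} (ha : 0 < a) (hs : LinSubgaussian μ a) {u : E n}
    (hu : ‖u‖ = 1) : Integrable (fun x : E n => ⟪x, u⟫_ℝ) μ := by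
  have hdom : Integrable (fun x : E n => a * exp (⟪x, u⟫_ℝ ^ 2 / a ^ 2)) μ :=
    (hs u hu).1.const_mul a
  refine hdom.mono' (by fun_prop) (Filter.Eventually.of_forall fun x => ?_)
  rw [Real.norm_eq_abs]
  set w := ⟪x, u⟫_ℝ with hw
  have h1 : (w / a) ^ 2 + 1 ≤ exp ((w / a) ^ 2) := Real.add_one_le_exp _
  have h2 : |w / a| ≤ (w / a) ^ 2 + 1 := by
    rw [← sq_abs (w / a)]
    nlinarith [sq_nonneg (|w / a| - 1), abs_nonneg (w / a)]
  have h3 : |w| = a * |w / a| := by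
    rw [abs_div, abs_of_pos ha]; field_simp
  have h4 : w ^ 2 / a ^ 2 = (w / a) ^ 2 := by rw [div_pow]
  rw [h3, h4]
  gcongr
  linarith

omit [IsProbabilityMeasure μ] in
lemma integrable_id_of_sub {a : ℝ} (ha : 0 < a) (hs : LinSubgaussian μ a) :
    Integrable (fun x : E n => x) μ := by
  let e := EuclideanSpace.basisFun (Fin n) ℝ
  have hdom : Integrable (fun x : E n => ∑ i, |⟪x, e i⟫_ℝ|) μ :=
    integrable_finsetSum _ fun i _ =>
      (integrable_inner_of_sub ha hs (e.orthonormal.1 i)).abs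
  refine hdom.mono' continuous_id.aestronglyMeasurable (Filter.Eventually.of_forall fun x => ?_)
  calc ‖x‖ = ‖∑ i, ⟪e i, x⟫_ℝ • e i‖ := by rw [e.sum_repr']
    _ ≤ ∑ i, ‖⟪e i, x⟫_ℝ • e i‖ := norm_sum_le _ _
    _ = ∑ i, |⟪x, e i⟫_ℝ| := by
        refine Finset.sum_congr rfl fun i _ => ?_
        rw [norm_smul, e.orthonormal.1 i, mul_one, Real.norm_eq_abs, real_inner_comm]

/-- The moment generating function bound from linear subgaussianity and the centering. -/
theorem mgf_of_subgaussian (hc : ∫ x, x ∂μ = 0) {a : ℝ} (ha : 0 < a) (hs : LinSubgaussian μ a)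
    (v : E n) :
    Integrable (fun x : E n => exp ⟪v, x⟫_ℝ) μ ∧
      ∫ x : E n, exp ⟪v, x⟫_ℝ ∂μ ≤ exp (a ^ 2 * ‖v‖ ^ 2) := by
  by_cases hv : v = 0
  · subst hv
    simp
  have ht : 0 < ‖v‖ := norm_pos_iff.mpr hv
  set t := ‖v‖ with htdef
  set u : E n := t⁻¹ • v with hudef
  have hu : ‖u‖ = 1 := by
    rw [hudef, norm_smul, norm_inv, Real.norm_eq_abs, abs_of_pos ht, inv_mul_cancel₀ ht.ne']
  have hvu : ∀ x : E n, ⟪v, x⟫_ℝ = t * ⟪x, u⟫_ℝ := by
    intro x
    rw [hudef, inner_smul_right, real_inner_comm]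
    field_simp
  obtain ⟨hY, hY2⟩ := hs u hu
  set Z : E n → ℝ := fun x => ⟪x, u⟫_ℝ ^ 2 / a ^ 2 with hZdef
  have hZm : Measurable Z := by
    have : Continuous Z := by rw [hZdef]; fun_prop
    exact this.measurable
  have hZint : Integrable (fun x => exp (Z x)) μ := hY
  have hZ2 : ∫ x, exp (Z x) ∂μ ≤ 2 := hY2
  have hvs : ∀ x : E n, ⟪x, u⟫_ℝ ^ 2 = a ^ 2 * Z x := by
    intro x
    simp only [hZdef]
    field_simp
  have hsplit : ∀ x : E n, ⟪v, x⟫_ℝ ≤ t ^ 2 * a ^ 2 / 2 + (1 / 2) * Z x := by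
    intro x
    rw [hvu]
    have h := hvs x
    have : 0 ≤ (t * a - ⟪x, u⟫_ℝ / a) ^ 2 := sq_nonneg _
    have e : (t * a - ⟪x, u⟫_ℝ / a) ^ 2 =
        t ^ 2 * a ^ 2 - 2 * (t * ⟪x, u⟫_ℝ) + Z x := by
      simp only [hZdef]
      field_simp
      ring
    rw [e] at this
    linarith
  have hZnn : ∀ x, 0 ≤ Z x := fun x => by simp only [hZdef]; positivity
  have hint : Integrable (fun x : E n => exp ⟪v, x⟫_ℝ) μ := by
    have hdom : Integrable (fun x => exp (t ^ 2 * a ^ 2 / 2) * exp (Z x)) μ :=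
      hZint.const_mul _
    refine hdom.mono' (by fun_prop) (Filter.Eventually.of_forall fun x => ?_)
    rw [Real.norm_eq_abs, abs_of_pos (Real.exp_pos _), ← Real.exp_add]
    apply Real.exp_le_exp.mpr
    have := hsplit x
    have := hZnn x
    linarith
  refine ⟨hint, ?_⟩
  by_cases hta : t ^ 2 * a ^ 2 ≤ 1
  · -- small case
    have hp0 : 0 < t ^ 2 * a ^ 2 := by positivity
    have hpt : ∀ x : E n, exp ⟪v, x⟫_ℝ ≤ t * ⟪x, u⟫_ℝ + exp ((t ^ 2 * a ^ 2) * Z x) := by
      intro x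
      have h := exp_le_add_exp_sq (t * ⟪x, u⟫_ℝ)
      rw [hvu]
      have e : (t * ⟪x, u⟫_ℝ) ^ 2 = t ^ 2 * a ^ 2 * Z x := by
        rw [mul_pow, hvs]; ring
      rwa [e] at h
    have hX : Integrable (fun x : E n => ⟪x, u⟫_ℝ) μ := integrable_inner_of_sub ha hs hu
    have hE : Integrable (fun x => exp ((t ^ 2 * a ^ 2) * Z x)) μ :=
      integrable_exp_mul_of_le hZm hZint hp0 hta
    have hX0 : ∫ x : E n, ⟪x, u⟫_ℝ ∂μ = 0 := by
      have h := integral_inner (𝕜 := ℝ) (integrable_id_of_sub ha hs) u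
      simp only [hc, inner_zero_right] at h
      rw [← h]
      exact integral_congr_ae (Filter.Eventually.of_forall fun x => real_inner_comm _ _)
    calc ∫ x : E n, exp ⟪v, x⟫_ℝ ∂μ
        ≤ ∫ x : E n, (t * ⟪x, u⟫_ℝ + exp ((t ^ 2 * a ^ 2) * Z x)) ∂μ :=
          integral_mono hint ((hX.const_mul t).add hE) hpt
      _ = t * ∫ x : E n, ⟪x, u⟫_ℝ ∂μ + ∫ x, exp ((t ^ 2 * a ^ 2) * Z x) ∂μ := by
          rw [integral_add (hX.const_mul t) hE, integral_const_mul]
      _ ≤ 2 ^ (t ^ 2 * a ^ 2) := by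
          rw [hX0, mul_zero, zero_add]
          exact integral_exp_mul_le hZm hZint hZ2 hp0 hta
      _ ≤ exp (t ^ 2 * a ^ 2) := two_rpow_le_exp hp0.le
      _ = exp (a ^ 2 * t ^ 2) := by rw [mul_comm]
  · push Not at hta
    have hE : Integrable (fun x => exp ((1 / 2 : ℝ) * Z x)) μ :=
      integrable_exp_mul_of_le hZm hZint (by norm_num) (by norm_num)
    have hpt : ∀ x : E n, exp ⟪v, x⟫_ℝ ≤ exp (t ^ 2 * a ^ 2 / 2) * exp ((1 / 2 : ℝ) * Z x) := by
      intro x
      rw [← Real.exp_add]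
      exact Real.exp_le_exp.mpr (hsplit x)
    calc ∫ x : E n, exp ⟪v, x⟫_ℝ ∂μ
        ≤ ∫ x : E n, exp (t ^ 2 * a ^ 2 / 2) * exp ((1 / 2 : ℝ) * Z x) ∂μ :=
          integral_mono hint (hE.const_mul _) hpt
      _ = exp (t ^ 2 * a ^ 2 / 2) * ∫ x : E n, exp ((1 / 2 : ℝ) * Z x) ∂μ := by
          rw [integral_const_mul]
      _ ≤ exp (t ^ 2 * a ^ 2 / 2) * 2 ^ (1 / 2 : ℝ) := by
          gcongr
          exact integral_exp_mul_le hZm hZint hZ2 (by norm_num) (by norm_num)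
      _ ≤ exp (t ^ 2 * a ^ 2 / 2) * exp (1 / 2 : ℝ) := by
          gcongr
          exact two_rpow_le_exp (by norm_num)
      _ ≤ exp (t ^ 2 * a ^ 2 / 2) * exp (t ^ 2 * a ^ 2 / 2) := by
          gcongr
      _ = exp (a ^ 2 * t ^ 2) := by
          rw [← Real.exp_add]; congr 1; ring

/-- The standing assumptions, given the midpoint inequality (which comes from `mid_of_LC`). -/
theorem SG_of_mid (hc : ∫ x, x ∂μ = 0) {a : ℝ} (ha : 0 < a) (hs : LinSubgaussian μ a)
    (hmid : ∀ s : ℝ, 0 < s → ∀ θ v : E n,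
      KK μ one s (θ + v) * KK μ one s (θ - v) ≤ KK μ one s θ ^ 2 * exp (‖v‖ ^ 2 / s)) :
    SG μ (a ^ 2) where
  pos := by positivity
  prob := inferInstance
  int := fun v => (mgf_of_subgaussian hc ha hs v).1
  bd := fun v => (mgf_of_subgaussian hc ha hs v).2
  centered := hc
  mid := hmid

/-- M8b : the standing assumptions from log-concavity, centering and linear subgaussianity. -/
theorem SG_of_subgaussian {ρ : E n → ℝ} (hρ : LC ρ)
    (hμ : μ = volume.withDensity (fun x => ENNReal.ofReal (ρ x)))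
    (hc : ∫ x, x ∂μ = 0) {a : ℝ} (ha : 0 < a) (hs : LinSubgaussian μ a) : SG μ (a ^ 2) :=
  SG_of_mid hc ha hs fun _ hs' θ v => mid_of_LC hρ hμ hs' θ v

end

end Vale.Agent.Lib.P245
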