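import Vale.Agent.Lib.P245.Rothaus
import Vale.Agent.Lib.P245.Level
import Vale.Agent.Lib.P245.Smooth
import Vale.Agent.Lib.P245.PLC
import Vale.Agent.Lib.P245.SubG

/-!
# P245 M8e : the final theorem

Level inequality for smooth compactly supported functions of unit norm, and the
log-Sobolev inequality with constant `256 a² + 200 (a⁴ n C_P)^{1/3} + 8 C_P`.
-/

open MeasureTheory Real Filter Topology
open scoped InnerProductSpace ContDiff

namespace Vale.Agent.Lib.P245

variable {n : ℕ}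

/-- M8b : the level inequality for (c + f₀)² + ε. -/
theorem level_smooth {ρ : E n → ℝ} (hρ : LC ρ) {μ : Measure (E n)} [IsProbabilityMeasure μ]
    (hμ : μ = volume.withDensity (fun x => ENNReal.ofReal (ρ x))) {b : ℝ} (h : SG μ b)
    {f₀ : E n → ℝ} (hf : ContDiff ℝ ∞ f₀) (hfc : HasCompactSupport f₀) (c : ℝ)
    {ε : ℝ} (hε : 0 < ε) {N : ℝ} (hN : N = ∫ x, ((c + f₀ x) ^ 2 + ε) ∂μ)
    {L : ℝ} (hL : L = Ent μ (fun x => (c + f₀ x) ^ 2 + ε) / N) (hLpos : 0 < L) :
    L ≤ b * max 32 (23 * Real.sqrt (n / L)) * ((4 / N) * ∫ x, ‖fderiv ℝ f₀ x‖ ^ 2 ∂μ) :=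
  level_smooth_of h.pos
    (fun _ _ _ _ _ hgm hDm hgb hDb hT hg1 _ hL' hLpos' =>
      level_main hρ hμ h hgm hDm hgb hDb hT hg1 hL' hLpos')
    hf hfc c hε hN hL hLpos

/-- Entropy is continuous under adding a small constant. -/
lemma Ent_add_tendsto (μ : Measure (E n)) [IsProbabilityMeasure μ] {h : E n → ℝ}
    (hm : Measurable h) (h0 : ∀ x, 0 ≤ h x) {T : ℝ} (hT : ∀ x, h x ≤ T) :
    Tendsto (fun ε : ℝ => Ent μ (fun x => h x + ε)) (𝓝[>] 0) (𝓝 (Ent μ h)) := by
  have hi : Integrable h μ := integrable_of_bdd μ hm (C := T) fun x => by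
    rw [abs_of_nonneg (h0 x)]; exact hT x
  obtain ⟨K, hK0, hK⟩ := exists_bound_mul_log (T + 1)
  have hmem : Set.Ioo (0 : ℝ) 1 ∈ 𝓝[>] (0 : ℝ) := Ioo_mem_nhdsGT one_pos
  have hcont : ∀ t : ℝ, Tendsto (fun ε : ℝ => (t + ε) * log (t + ε)) (𝓝[>] 0) (𝓝 (t * log t)) := by
    intro t
    have h1 : Continuous fun ε : ℝ => (t + ε) * log (t + ε) :=
      Real.continuous_mul_log.comp (continuous_const.add continuous_id)
    have h2 := h1.tendsto 0
    simp only [add_zero] at h2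
    exact h2.mono_left nhdsWithin_le_nhds
  have hA : Tendsto (fun ε : ℝ => ∫ x, (h x + ε) * log (h x + ε) ∂μ) (𝓝[>] 0)
      (𝓝 (∫ x, h x * log (h x) ∂μ)) := by
    refine tendsto_integral_filter_of_dominated_convergence (fun _ => K) ?_ ?_
      (integrable_const _) (Eventually.of_forall fun x => hcont (h x))
    · exact Eventually.of_forall fun ε =>
        (measurable_mul_log (hm.add_const ε)).aestronglyMeasurable
    · filter_upwards [hmem] with ε hε
      refine Eventually.of_forall fun x => ?_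
      rw [Real.norm_eq_abs]
      exact hK _ (add_nonneg (h0 x) hε.1.le) (by have := hT x; have := hε.2; linarith)
  have hB : ∀ ε : ℝ, ∫ x, (h x + ε) ∂μ = ∫ x, h x ∂μ + ε := fun ε => by
    rw [integral_add hi (integrable_const _)]; simp
  simp only [Ent, hB]
  exact hA.sub (hcont _)

/-- Part (i): the level inequality, for `b = a²` -/
theorem level_unit {ρ : E n → ℝ} (hρ : LC ρ) {μ : Measure (E n)} [IsProbabilityMeasure μ]
    (hμ : μ = volume.withDensity (fun x => ENNReal.ofReal (ρ x))) {b : ℝ} (h : SG μ b)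
    {f : E n → ℝ} (hf : ContDiff ℝ ∞ f) (hfc : HasCompactSupport f)
    (hu : ∫ x, f x ^ 2 ∂μ = 1) :
    Ent μ (fun x => f x ^ 2) ≤
      4 * b * max 32 (23 * Real.sqrt (n / Ent μ (fun x => f x ^ 2))) *
        ∫ x, ‖fderiv ℝ f x‖ ^ 2 ∂μ := by
  have hb : 0 < b := h.pos
  set E₀ := Ent μ (fun x => f x ^ 2) with hE₀
  set D := ∫ x, ‖fderiv ℝ f x‖ ^ 2 ∂μ with hD
  have hD0 : 0 ≤ D := integral_nonneg fun x => by positivity
  have hM0 : 0 ≤ max (32 : ℝ) (23 * Real.sqrt (n / E₀)) := le_max_of_le_left (by norm_num)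
  by_cases hpos : 0 < E₀
  swap
  · have : 0 ≤ 4 * b * max 32 (23 * Real.sqrt (n / E₀)) * D := by positivity
    linarith
  -- boundedness of `f`
  have hfcont : Continuous f := hf.continuous
  obtain ⟨C, hC⟩ := hfcont.bounded_above_of_compact_support hfc
  have hfm : Measurable fun x => f x ^ 2 := hfcont.measurable.pow_const 2
  have hf0 : ∀ x, 0 ≤ f x ^ 2 := fun x => sq_nonneg _
  have hfT : ∀ x, f x ^ 2 ≤ C ^ 2 := fun x => by
    have h1 := hC x
    rw [Real.norm_eq_abs] at h1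
    calc f x ^ 2 = |f x| ^ 2 := (sq_abs _).symm
      _ ≤ C ^ 2 := by gcongr
  have hfi : Integrable (fun x => f x ^ 2) μ := integrable_of_bdd μ hfm (C := C ^ 2) fun x => by
    rw [abs_of_nonneg (hf0 x)]; exact hfT x
  -- the approximating quantities
  have hEnt := Ent_add_tendsto μ hfm hf0 hfT
  rw [← hE₀] at hEnt
  have hN : ∀ ε : ℝ, ∫ x, ((0 + f x) ^ 2 + ε) ∂μ = 1 + ε := fun ε => by
    simp only [zero_add]
    rw [integral_add hfi (integrable_const _), hu]; simp
  have hNt : Tendsto (fun ε : ℝ => 1 + ε) (𝓝[>] 0) (𝓝 1) := by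
    have h2 : Tendsto (fun ε : ℝ => 1 + ε) (𝓝 0) (𝓝 (1 + 0)) :=
      (continuous_const.add continuous_id : Continuous fun ε : ℝ => 1 + ε).tendsto 0
    rw [add_zero] at h2
    exact h2.mono_left nhdsWithin_le_nhds
  have hLt : Tendsto (fun ε : ℝ => Ent μ (fun x => f x ^ 2 + ε) / (1 + ε)) (𝓝[>] 0) (𝓝 E₀) := by
    have := hEnt.div hNt one_ne_zero
    rw [div_one] at this
    exact this
  have hRt : Tendsto (fun ε : ℝ =>
      b * max 32 (23 * Real.sqrt (n / (Ent μ (fun x => f x ^ 2 + ε) / (1 + ε)))) *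
        ((4 / (1 + ε)) * D)) (𝓝[>] 0)
      (𝓝 (b * max 32 (23 * Real.sqrt (n / E₀)) * ((4 / 1) * D))) := by
    refine Tendsto.mul (Tendsto.mul tendsto_const_nhds (Tendsto.max tendsto_const_nhds ?_))
      (Tendsto.mul (Tendsto.div tendsto_const_nhds hNt one_ne_zero) tendsto_const_nhds)
    refine Tendsto.mul tendsto_const_nhds ?_
    exact (Real.continuous_sqrt.tendsto _).comp (Tendsto.div tendsto_const_nhds hLt hpos.ne')
  have hev : ∀ᶠ ε : ℝ in 𝓝[>] 0, Ent μ (fun x => f x ^ 2 + ε) / (1 + ε) ≤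
      b * max 32 (23 * Real.sqrt (n / (Ent μ (fun x => f x ^ 2 + ε) / (1 + ε)))) *
        ((4 / (1 + ε)) * D) := by
    filter_upwards [self_mem_nhdsWithin, hLt.eventually (lt_mem_nhds hpos)] with ε hε hL
    have hε' : (0 : ℝ) < ε := hε
    have := level_smooth hρ hμ h hf hfc 0 hε' (N := 1 + ε) (hN ε).symm
      (L := Ent μ (fun x => f x ^ 2 + ε) / (1 + ε)) (by simp only [zero_add]) hL
    exact this
  have := le_of_tendsto_of_tendsto hLt hRt hev
  calc E₀ ≤ _ := this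
    _ = _ := by ring

/-- Level bound for all levels: if the level is at least `L0` we use the level inequality. -/
lemma Ent_sq_le_of_level {ρ : E n → ℝ} (hρ : LC ρ) {μ : Measure (E n)} [IsProbabilityMeasure μ]
    (hμ : μ = volume.withDensity (fun x => ENNReal.ofReal (ρ x))) {b : ℝ} (h : SG μ b)
    {f : E n → ℝ} (hf : ContDiff ℝ ∞ f) (hfc : HasCompactSupport f) (c : ℝ)
    {L0 : ℝ} (hL0 : 0 < L0) :
    Ent μ (fun x => (c + f x) ^ 2) ≤ L0 * ∫ x, (c + f x) ^ 2 ∂μ +
      4 * b * max 32 (23 * Real.sqrt (n / L0)) * ∫ x, ‖fderiv ℝ f x‖ ^ 2 ∂μ := by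
  have hb : 0 < b := h.pos
  set D := ∫ x, ‖fderiv ℝ f x‖ ^ 2 ∂μ with hD
  have hD0 : 0 ≤ D := integral_nonneg fun x => by positivity
  set M := max (32 : ℝ) (23 * Real.sqrt (n / L0)) with hM
  have hM0 : 0 ≤ M := le_max_of_le_left (by norm_num)
  set A := ∫ x, (c + f x) ^ 2 ∂μ with hA
  have hA0 : 0 ≤ A := integral_nonneg fun x => sq_nonneg _
  have hfcont : Continuous f := hf.continuous
  obtain ⟨C, hC⟩ := hfcont.bounded_above_of_compact_support hfc
  have hgm : Measurable fun x => (c + f x) ^ 2 :=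
    (hfcont.measurable.const_add c).pow_const 2
  have hg0 : ∀ x, 0 ≤ (c + f x) ^ 2 := fun x => sq_nonneg _
  have hgT : ∀ x, (c + f x) ^ 2 ≤ (|c| + C) ^ 2 := fun x => by
    have h1 := hC x
    rw [Real.norm_eq_abs] at h1
    have h2 := abs_add_le c (f x)
    calc (c + f x) ^ 2 = |c + f x| ^ 2 := (sq_abs _).symm
      _ ≤ (|c| + C) ^ 2 := by
          have : |c + f x| ≤ |c| + C := by linarith
          gcongr
  have hgi : Integrable (fun x => (c + f x) ^ 2) μ :=
    integrable_of_bdd μ hgm (C := (|c| + C) ^ 2) fun x => by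
      rw [abs_of_nonneg (hg0 x)]; exact hgT x
  have hEnt := Ent_add_tendsto μ hgm hg0 hgT
  have hstep : ∀ ε : ℝ, 0 < ε → Ent μ (fun x => (c + f x) ^ 2 + ε) ≤
      L0 * (A + ε) + 4 * b * M * D := by
    intro ε hε
    set N := A + ε with hN
    have hNpos : 0 < N := by positivity
    have hNint : N = ∫ x, ((c + f x) ^ 2 + ε) ∂μ := by
      rw [integral_add hgi (integrable_const _)]; simp [hN, hA]
    set L := Ent μ (fun x => (c + f x) ^ 2 + ε) / N with hL
    have hEL : Ent μ (fun x => (c + f x) ^ 2 + ε) = L * N := by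
      rw [hL]; field_simp
    rw [hEL]
    by_cases hlt : L < L0
    · have h1 : L * N ≤ L0 * N := mul_le_mul_of_nonneg_right hlt.le hNpos.le
      have h2 : 0 ≤ 4 * b * M * D := by positivity
      linarith
    · rw [not_lt] at hlt
      have hLpos : 0 < L := by linarith
      have key := level_smooth hρ hμ h hf hfc c hε hNint hL hLpos
      have hmono : max (32 : ℝ) (23 * Real.sqrt (n / L)) ≤ M := by
        apply max_le_max_left
        have : (n : ℝ) / L ≤ n / L0 := div_le_div_of_nonneg_left (by positivity) hL0 hlt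
        have := Real.sqrt_le_sqrt this
        linarith
      have h3 : L ≤ b * M * ((4 / N) * D) := by
        refine key.trans ?_
        have : 0 ≤ (4 / N) * D := by positivity
        gcongr
      have h4 : L * N ≤ 4 * b * M * D := by
        calc L * N ≤ (b * M * ((4 / N) * D)) * N := mul_le_mul_of_nonneg_right h3 hNpos.le
          _ = 4 * b * M * D := by field_simp
      have h5 : 0 ≤ L0 * N := by positivity
      linarith
  have hRt : Tendsto (fun ε : ℝ => L0 * (A + ε) + 4 * b * M * D) (𝓝[>] 0)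
      (𝓝 (L0 * A + 4 * b * M * D)) := by
    have h1 : Continuous fun ε : ℝ => L0 * (A + ε) + 4 * b * M * D := by fun_prop
    have h2 := h1.tendsto 0
    simp only [add_zero] at h2
    exact h2.mono_left nhdsWithin_le_nhds
  refine le_of_tendsto_of_tendsto hEnt hRt ?_
  filter_upwards [self_mem_nhdsWithin] with ε hε
  exact hstep ε hε

/-- Part (ii) for a free parameter `L0`. -/
lemma Ent_le_param {ρ : E n → ℝ} (hρ : LC ρ) {μ : Measure (E n)} [IsProbabilityMeasure μ]
    (hμ : μ = volume.withDensity (fun x => ENNReal.ofReal (ρ x))) {b : ℝ} (h : SG μ b)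
    {CP : ℝ}
    (hP : ∀ f : E n → ℝ, ContDiff ℝ ∞ f → HasCompactSupport f →
        ∫ x, f x ^ 2 ∂μ - (∫ x, f x ∂μ) ^ 2 ≤ CP * ∫ x, ‖fderiv ℝ f x‖ ^ 2 ∂μ)
    {f : E n → ℝ} (hf : ContDiff ℝ ∞ f) (hfc : HasCompactSupport f)
    {L0 : ℝ} (hL0 : 0 < L0) :
    Ent μ (fun x => f x ^ 2) ≤
      (256 * b + 184 * b * Real.sqrt (n / L0) + 2 * (L0 * CP) + 8 * CP) *
        ∫ x, ‖fderiv ℝ f x‖ ^ 2 ∂μ := by
  have hb : 0 < b := h.pos
  set D := ∫ x, ‖fderiv ℝ f x‖ ^ 2 ∂μ with hD
  have hD0 : 0 ≤ D := integral_nonneg fun x => by positivity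
  have hfcont : Continuous f := hf.continuous
  obtain ⟨C, hC⟩ := hfcont.bounded_above_of_compact_support hfc
  have hfabs : ∀ x, |f x| ≤ C := fun x => by simpa [Real.norm_eq_abs] using hC x
  have hfm : Measurable f := hfcont.measurable
  have hfi : Integrable f μ := integrable_of_bdd μ hfm hfabs
  have hf2m : Measurable fun x => f x ^ 2 := hfm.pow_const 2
  have hf2i : Integrable (fun x => f x ^ 2) μ :=
    integrable_of_bdd μ hf2m (C := C ^ 2) fun x => by
      rw [abs_of_nonneg (sq_nonneg _), ← sq_abs (f x)]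
      have := hfabs x
      gcongr
  set c := ∫ x, f x ∂μ with hc
  -- centred function
  have hgm : Measurable fun x => f x - c := hfm.sub_const c
  have hgb : ∀ x, |f x - c| ≤ C + |c| := fun x => by
    have h1 := abs_sub (f x) c
    have h2 := hfabs x
    linarith
  have hg0 : ∫ x, (f x - c) ∂μ = 0 := by
    rw [integral_sub hfi (integrable_const _)]; simp [← hc]
  have hAeq : ∫ x, (f x - c) ^ 2 ∂μ = ∫ x, f x ^ 2 ∂μ - c ^ 2 := by
    have : ∀ x, (f x - c) ^ 2 = f x ^ 2 - 2 * c * f x + c ^ 2 := fun x => by ring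
    simp_rw [this]
    have hB : Integrable (fun x => f x ^ 2 - 2 * c * f x) μ := hf2i.sub (hfi.const_mul _)
    have hB' : Integrable (fun x => 2 * c * f x) μ := hfi.const_mul _
    rw [integral_add hB (integrable_const _), integral_sub hf2i hB', integral_const_mul, ← hc]
    simp
    ring
  have hApoin : ∫ x, (f x - c) ^ 2 ∂μ ≤ CP * D := by
    rw [hAeq]; exact hP f hf hfc
  -- weak Rothaus
  have hR := rothaus_weak μ hgm hgb hg0 c
  have hfun : (fun x => (c + (f x - c)) ^ 2) = fun x => f x ^ 2 := by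
    funext x; ring
  rw [hfun] at hR
  -- level bound
  have hLv := Ent_sq_le_of_level hρ hμ h hf hfc (-c) hL0
  have hfun2 : (fun x => (-c + f x) ^ 2) = fun x => (f x - c) ^ 2 := by
    funext x; ring
  rw [hfun2] at hLv
  -- max bound
  have hs0 : 0 ≤ Real.sqrt (n / L0) := Real.sqrt_nonneg _
  have hmax : max (32 : ℝ) (23 * Real.sqrt (n / L0)) ≤ 32 + 23 * Real.sqrt (n / L0) :=
    max_le (by linarith) (by linarith)
  have hterm : 4 * b * max (32 : ℝ) (23 * Real.sqrt (n / L0)) * D ≤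
      4 * b * (32 + 23 * Real.sqrt (n / L0)) * D := by
    gcongr
  have hL0A : L0 * ∫ x, (f x - c) ^ 2 ∂μ ≤ L0 * (CP * D) :=
    mul_le_mul_of_nonneg_left hApoin hL0.le
  rw [← hD] at hLv
  calc Ent μ (fun x => f x ^ 2)
      ≤ 2 * Ent μ (fun x => (f x - c) ^ 2) + 8 * ∫ x, (f x - c) ^ 2 ∂μ := hR
    _ ≤ 2 * (L0 * (CP * D) + 4 * b * (32 + 23 * Real.sqrt (n / L0)) * D) + 8 * (CP * D) := by
        linarith
    _ = _ := by ring

/-- M8e : Final theorem, blueprint section 8. -/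
theorem final_main {ρ : E n → ℝ} (hρ : IsLogConcaveDensity ρ) {μ : Measure (E n)}
    [IsProbabilityMeasure μ] (hμ : μ = volume.withDensity (fun x => ENNReal.ofReal (ρ x)))
    (hc : ∫ x, x ∂μ = 0) {a : ℝ} (ha : 0 < a) (hs : LinSubgaussian μ a) :
    (∀ f : E n → ℝ, ContDiff ℝ ∞ f → HasCompactSupport f → ∫ x, f x ^ 2 ∂μ = 1 →
      Ent μ (fun x => f x ^ 2) ≤
        4 * a ^ 2 * max 32 (23 * Real.sqrt (n / Ent μ (fun x => f x ^ 2))) *
          ∫ x, ‖fderiv ℝ f x‖ ^ 2 ∂μ) ∧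
    (∀ CP : ℝ, 0 < CP →
      (∀ f : E n → ℝ, ContDiff ℝ ∞ f → HasCompactSupport f →
        ∫ x, f x ^ 2 ∂μ - (∫ x, f x ∂μ) ^ 2 ≤ CP * ∫ x, ‖fderiv ℝ f x‖ ^ 2 ∂μ) →
      ∀ f : E n → ℝ, ContDiff ℝ ∞ f → HasCompactSupport f →
        Ent μ (fun x => f x ^ 2) ≤
          (256 * a ^ 2 + 200 * (a ^ 4 * n * CP) ^ ((1 : ℝ) / 3) + 8 * CP) *
            ∫ x, ‖fderiv ℝ f x‖ ^ 2 ∂μ) := by
  have hLC : LC ρ := LC_of_density hρ
  have hSG : SG μ (a ^ 2) := SG_of_mid hc ha hs fun s hs' θ v => mid_of_LC hLC hμ hs' θ v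
  refine ⟨fun f hf hfc hu => level_unit hLC hμ hSG hf hfc hu, fun CP hCP hP f hf hfc => ?_⟩
  set D := ∫ x, ‖fderiv ℝ f x‖ ^ 2 ∂μ with hD
  have hD0 : 0 ≤ D := integral_nonneg fun x => by positivity
  have hparam : ∀ L0 : ℝ, 0 < L0 → Ent μ (fun x => f x ^ 2) ≤
      (256 * a ^ 2 + 184 * a ^ 2 * Real.sqrt (n / L0) + 2 * (L0 * CP) + 8 * CP) * D :=
    fun L0 hL0 => Ent_le_param hLC hμ hSG hP hf hfc hL0
  have hb : 0 < a ^ 2 := by positivity
  rcases Nat.eq_zero_or_pos n with hn | hn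
  · -- `n = 0` : send `L0` to zero
    subst hn
    have hT : (a ^ 4 * ((0 : ℕ) : ℝ) * CP) ^ ((1 : ℝ) / 3) = 0 := by
      simp
    rw [hT]
    refine le_of_forall_pos_le_add fun δ hδ => ?_
    have hposD : 0 < 2 * CP * (D + 1) := by positivity
    have hL0 : 0 < δ / (2 * CP * (D + 1)) := by positivity
    have h1 := hparam _ hL0
    have hz : Real.sqrt (((0 : ℕ) : ℝ) / (δ / (2 * CP * (D + 1)))) = 0 := by simp
    rw [hz] at h1
    have h2 : 2 * (δ / (2 * CP * (D + 1)) * CP) * D ≤ δ := by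
      have : 2 * (δ / (2 * CP * (D + 1)) * CP) * D = δ * (D / (D + 1)) := by
        field_simp
      rw [this]
      have h3 : D / (D + 1) ≤ 1 := by
        rw [div_le_one (by positivity)]; linarith
      nlinarith
    calc Ent μ (fun x => f x ^ 2) ≤ _ := h1
      _ = (256 * a ^ 2 + 200 * 0 + 8 * CP) * D + 2 * (δ / (2 * CP * (D + 1)) * CP) * D := by ring
      _ ≤ _ := by linarith
  · have hnpos : (0 : ℝ) < n := by exact_mod_cast hn
    set X := a ^ 4 * (n : ℝ) * CP with hX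
    have hXpos : 0 < X := by positivity
    set T := X ^ ((1 : ℝ) / 3) with hT
    have hTpos : 0 < T := Real.rpow_pos_of_pos hXpos _
    have hT3 : T ^ 3 = X := by
      rw [hT, ← Real.rpow_natCast, ← Real.rpow_mul hXpos.le]
      norm_num
    have hL0 : 0 < T / CP := by positivity
    have hsq : Real.sqrt (n / (T / CP)) = T / a ^ 2 := by
      have : (n : ℝ) / (T / CP) = (T / a ^ 2) ^ 2 := by
        have h4 : a ^ 4 * (n : ℝ) * CP = T ^ 3 := by rw [hT3]
        field_simp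
        nlinarith [h4]
      rw [this, Real.sqrt_sq (by positivity)]
    have h1 := hparam _ hL0
    rw [hsq] at h1
    have h2 : 256 * a ^ 2 + 184 * a ^ 2 * (T / a ^ 2) + 2 * (T / CP * CP) + 8 * CP
        = 256 * a ^ 2 + 186 * T + 8 * CP := by
      field_simp
      ring
    rw [h2] at h1
    refine h1.trans ?_
    gcongr
    linarith

end Vale.Agent.Lib.P245
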