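import Vale.Agent.Lib.P245.PLC

/-!
# P245, module M4b: Bobkov-Ledoux log-Sobolev inequality for tilted log-concave measures
-/

open MeasureTheory Real Set Filter Topology
open scoped InnerProductSpace ENNReal

namespace Vale.Agent.Lib.P245

variable {n : ℕ}

/-- A comparison of derivatives at a common value. -/
lemma plc_deriv_compare {L R : ℝ → ℝ} {a b : ℝ} (hL : HasDerivAt L a 0) (hR : HasDerivAt R b 0)
    (h0 : L 0 = R 0) (hle : ∀ᶠ ε in 𝓝[>] (0 : ℝ), L ε ≤ R ε) : a ≤ b := by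
  have hsub : Ioi (0 : ℝ) ⊆ {0}ᶜ := fun x hx => (ne_of_gt hx)
  have h1 := (hasDerivAt_iff_tendsto_slope_zero.mp hL).mono_left (nhdsWithin_mono (0 : ℝ) hsub)
  have h2 := (hasDerivAt_iff_tendsto_slope_zero.mp hR).mono_left (nhdsWithin_mono (0 : ℝ) hsub)
  refine le_of_tendsto_of_tendsto h1 h2 ?_
  filter_upwards [hle, self_mem_nhdsWithin] with ε hε hpos
  have hpos' : (0 : ℝ) < ε := hpos
  simp only [zero_add, smul_eq_mul]
  rw [h0]
  exact mul_le_mul_of_nonneg_left (by linarith) (inv_nonneg.mpr hpos'.le)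

/-- The density of the tilted measure with respect to Lebesgue measure. -/
noncomputable def plcPsi (ρ : E n → ℝ) (μ : Measure (E n)) (s : ℝ) (θ x : E n) : ℝ :=
  ρ x * (wt s θ x / KK μ one s θ)

lemma plc_tilt_prob {μ : Measure (E n)} [IsProbabilityMeasure μ] {s : ℝ} (hs : 0 < s) (θ : E n) :
    IsProbabilityMeasure (tilt μ s θ) := by
  constructor
  have hZ := KK_one_pos' (μ := μ) hs θ
  rw [tilt, withDensity_apply _ MeasurableSet.univ, Measure.restrict_univ,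
    ← ofReal_integral_eq_lintegral_ofReal ((integrable_wt hs θ).div_const _)
      (Filter.Eventually.of_forall fun x => div_nonneg (plc_wt_pos s θ x).le hZ.le),
    integral_div, ← KK_one_eq, div_self hZ.ne', ENNReal.ofReal_one]

lemma plc_tilt_eq {ρ : E n → ℝ} (hρ : LC ρ) {μ : Measure (E n)} [IsProbabilityMeasure μ]
    (hμ : μ = volume.withDensity (fun x => ENNReal.ofReal (ρ x)))
    {s : ℝ} (hs : 0 < s) (θ : E n) :
    tilt μ s θ = volume.withDensity (fun x => ENNReal.ofReal (plcPsi ρ μ s θ x)) := by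
  have hZ := KK_one_pos' (μ := μ) hs θ
  have hm1 : Measurable (fun x => ENNReal.ofReal (ρ x)) := hρ.2.1.ennreal_ofReal
  have hm2 : Measurable (fun x => ENNReal.ofReal (wt s θ x / KK μ one s θ)) :=
    ((plc_measurable_wt s θ).div_const _).ennreal_ofReal
  have e : tilt μ s θ = (volume.withDensity (fun x => ENNReal.ofReal (ρ x))).withDensity
      (fun x => ENNReal.ofReal (wt s θ x / KK μ one s θ)) := by
    rw [← hμ]
    rfl
  rw [e, ← withDensity_mul _ hm1 hm2]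
  congr 1
  ext x
  simp only [Pi.mul_apply, plcPsi]
  rw [ENNReal.ofReal_mul (hρ.1 x)]

lemma plc_psi_nonneg {ρ : E n → ℝ} (hρ : LC ρ) {μ : Measure (E n)} [IsProbabilityMeasure μ]
    {s : ℝ} (hs : 0 < s) (θ x : E n) : 0 ≤ plcPsi ρ μ s θ x :=
  mul_nonneg (hρ.1 x) (div_nonneg (plc_wt_pos s θ x).le (KK_one_pos' (μ := μ) hs θ).le)

lemma plc_psi_measurable {ρ : E n → ℝ} (hρ : LC ρ) {μ : Measure (E n)} (s : ℝ) (θ : E n) :
    Measurable (plcPsi ρ μ s θ) :=
  hρ.2.1.mul ((plc_measurable_wt s θ).div_const _)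

/-- Lower integrals against the density of the tilted measure. -/
lemma plc_lintegral {ρ : E n → ℝ} (hρ : LC ρ) {μ : Measure (E n)} [IsProbabilityMeasure μ]
    (hμ : μ = volume.withDensity (fun x => ENNReal.ofReal (ρ x)))
    {s : ℝ} (hs : 0 < s) (θ : E n) {h : E n → ℝ} (hm : Measurable h) (h0 : ∀ x, 0 ≤ h x) {C : ℝ}
    (hC : ∀ x, h x ≤ C) :
    ∫⁻ x, ENNReal.ofReal (h x * plcPsi ρ μ s θ x) = ENNReal.ofReal (∫ x, h x ∂(tilt μ s θ)) := by
  have := plc_tilt_prob (μ := μ) hs θ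
  have hint : Integrable h (tilt μ s θ) := by
    refine Integrable.of_bound hm.aestronglyMeasurable C (Filter.Eventually.of_forall fun x => ?_)
    rw [Real.norm_of_nonneg (h0 x)]
    exact hC x
  rw [ofReal_integral_eq_lintegral_ofReal hint (Filter.Eventually.of_forall h0)]
  conv_rhs => rw [plc_tilt_eq hρ hμ hs θ]
  rw [lintegral_withDensity_eq_lintegral_mul _ (plc_psi_measurable hρ s θ).ennreal_ofReal
    hm.ennreal_ofReal]
  refine lintegral_congr fun x => ?_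
  simp only [Pi.mul_apply]
  rw [ENNReal.ofReal_mul (h0 x), mul_comm]

/-- The strong log-concavity of the density. -/
lemma plc_psi_strong {ρ : E n → ℝ} (hρ : LC ρ) {μ : Measure (E n)} [IsProbabilityMeasure μ]
    {s : ℝ} (hs : 0 < s) (θ x y : E n) {t : ℝ} (h0 : 0 < t) (h1 : t < 1) :
    plcPsi ρ μ s θ x ^ t * plcPsi ρ μ s θ y ^ (1 - t) * exp (s / 2 * t * (1 - t) * ‖x - y‖ ^ 2) ≤
      plcPsi ρ μ s θ (t • x + (1 - t) • y) := by
  have hZ := KK_one_pos' (μ := μ) hs θ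
  set Z := KK μ one s θ with hZdef
  set z := t • x + (1 - t) • y with hz
  have hlc := hρ.2.2 x y t h0 h1
  have hW : (wt s θ x / Z) ^ t * (wt s θ y / Z) ^ (1 - t) *
      exp (s / 2 * t * (1 - t) * ‖x - y‖ ^ 2) = wt s θ z / Z := by
    rw [div_rpow (plc_wt_pos s θ x).le hZ.le, div_rpow (plc_wt_pos s θ y).le hZ.le]
    have hZZ : Z ^ t * Z ^ (1 - t) = Z := by
      rw [← rpow_add hZ]
      simp
    have hexp : wt s θ x ^ t * wt s θ y ^ (1 - t) * exp (s / 2 * t * (1 - t) * ‖x - y‖ ^ 2) =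
        wt s θ z := by
      unfold wt
      rw [← exp_mul, ← exp_mul, ← exp_add, ← exp_add]
      congr 1
      have hi : ⟪θ, z⟫_ℝ = t * ⟪θ, x⟫_ℝ + (1 - t) * ⟪θ, y⟫_ℝ := by
        rw [hz, inner_add_right, inner_smul_right, inner_smul_right]
      have hn : ‖z‖ ^ 2 = t * ‖x‖ ^ 2 + (1 - t) * ‖y‖ ^ 2 - t * (1 - t) * ‖x - y‖ ^ 2 := by
        have hxy : ‖x - y‖ ^ 2 = ‖x‖ ^ 2 - 2 * ⟪x, y⟫_ℝ + ‖y‖ ^ 2 := norm_sub_sq_real x y
        have hz2 : ‖z‖ ^ 2 = t ^ 2 * ‖x‖ ^ 2 + 2 * (t * (1 - t)) * ⟪x, y⟫_ℝ +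
            (1 - t) ^ 2 * ‖y‖ ^ 2 := by
          rw [hz, norm_add_sq_real, norm_smul, norm_smul, inner_smul_left, inner_smul_right,
            mul_pow, mul_pow, Real.norm_eq_abs, Real.norm_eq_abs, sq_abs, sq_abs]
          simp only [conj_trivial]
          ring
        rw [hz2, hxy]
        ring
      rw [hi, hn]
      ring
    rw [div_mul_div_comm, div_mul_eq_mul_div, hexp, hZZ]
  have hz0 : 0 ≤ wt s θ z / Z := div_nonneg (plc_wt_pos s θ z).le hZ.le
  unfold plcPsi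
  rw [mul_rpow (hρ.1 x) (div_nonneg (plc_wt_pos s θ x).le hZ.le),
    mul_rpow (hρ.1 y) (div_nonneg (plc_wt_pos s θ y).le hZ.le)]
  calc _ = (ρ x ^ t * ρ y ^ (1 - t)) * ((wt s θ x / Z) ^ t * (wt s θ y / Z) ^ (1 - t) *
        exp (s / 2 * t * (1 - t) * ‖x - y‖ ^ 2)) := by ring
    _ = (ρ x ^ t * ρ y ^ (1 - t)) * (wt s θ z / Z) := by rw [hW]
    _ ≤ ρ z * (wt s θ z / Z) := mul_le_mul_of_nonneg_right hlc hz0

/-- The pointwise input of the Prekopa-Leindler step. -/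
lemma plc_pointwise {ρ : E n → ℝ} (hρ : LC ρ) {μ : Measure (E n)} [IsProbabilityMeasure μ]
    {s : ℝ} (hs : 0 < s) (θ : E n)
    {g : E n → ℝ} {D : E n → E n} {K : ℝ}
    (hT : ∀ x z, g x ≤ g z + ⟪D z, x - z⟫_ℝ + K * ‖x - z‖ ^ 2)
    {t σ : ℝ} (h0 : 0 < t) (h1 : t < 1) (hσ : σ = s * t - 2 * K * (1 - t)) (hσ0 : 0 < σ)
    (x y : E n) :
    (exp (g x / t) * plcPsi ρ μ s θ x) ^ t * (1 * plcPsi ρ μ s θ y) ^ (1 - t) ≤
      exp (g (t • x + (1 - t) • y) + (1 - t) * ‖D (t • x + (1 - t) • y)‖ ^ 2 / (2 * σ)) *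
        plcPsi ρ μ s θ (t • x + (1 - t) • y) := by
  set z := t • x + (1 - t) • y with hz
  have hεpos : 0 < 1 - t := by linarith
  have hψx := plc_psi_nonneg (μ := μ) hρ hs θ x
  have hψy := plc_psi_nonneg (μ := μ) hρ hs θ y
  have hψz := plc_psi_nonneg (μ := μ) hρ hs θ z
  have hstrong := plc_psi_strong (μ := μ) hρ hs θ x y h0 h1
  set w := x - y with hw
  set E₀ := exp (s / 2 * t * (1 - t) * ‖w‖ ^ 2) with hE₀
  have hxz : x - z = (1 - t) • w := by
    rw [hz, hw, smul_sub]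
    have : x = t • x + (1 - t) • x := by
      rw [← add_smul]
      simp
    nth_rewrite 1 [this]
    abel
  have hkey : g x - s / 2 * t * (1 - t) * ‖w‖ ^ 2 ≤ g z + (1 - t) * ‖D z‖ ^ 2 / (2 * σ) := by
    have h3 := hT x z
    rw [hxz, inner_smul_right, norm_smul, mul_pow, Real.norm_eq_abs, sq_abs] at h3
    have h4 := inner_sub_le hσ0 (D z) w
    have h5 := mul_le_mul_of_nonneg_left h4 hεpos.le
    have h6 : (1 - t) * (‖D z‖ ^ 2 / (2 * σ)) = (1 - t) * ‖D z‖ ^ 2 / (2 * σ) := by ring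
    rw [h6] at h5
    rw [hσ] at h5 ⊢
    nlinarith
  have hexp : exp (g x) ≤ exp (g z + (1 - t) * ‖D z‖ ^ 2 / (2 * σ)) * E₀ := by
    rw [hE₀, ← exp_add]
    refine exp_le_exp.mpr ?_
    linarith
  have hgt : exp (g x / t) ^ t = exp (g x) := by
    rw [← exp_mul]
    congr 1
    field_simp
  rw [mul_rpow (exp_pos _).le hψx, one_mul, hgt]
  have hA : 0 ≤ plcPsi ρ μ s θ x ^ t * plcPsi ρ μ s θ y ^ (1 - t) :=
    mul_nonneg (rpow_nonneg hψx _) (rpow_nonneg hψy _)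
  calc exp (g x) * plcPsi ρ μ s θ x ^ t * plcPsi ρ μ s θ y ^ (1 - t)
      = exp (g x) * (plcPsi ρ μ s θ x ^ t * plcPsi ρ μ s θ y ^ (1 - t)) := by ring
    _ ≤ (exp (g z + (1 - t) * ‖D z‖ ^ 2 / (2 * σ)) * E₀) *
        (plcPsi ρ μ s θ x ^ t * plcPsi ρ μ s θ y ^ (1 - t)) :=
        mul_le_mul_of_nonneg_right hexp hA
    _ = exp (g z + (1 - t) * ‖D z‖ ^ 2 / (2 * σ)) *
        (plcPsi ρ μ s θ x ^ t * plcPsi ρ μ s θ y ^ (1 - t) * E₀) := by ring
    _ ≤ _ := mul_le_mul_of_nonneg_left hstrong (exp_pos _).le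

/-- The Prekopa-Leindler step. -/
lemma plc_step {ρ : E n → ℝ} (hρ : LC ρ) {μ : Measure (E n)} [IsProbabilityMeasure μ]
    (hμ : μ = volume.withDensity (fun x => ENNReal.ofReal (ρ x)))
    {s : ℝ} (hs : 0 < s) (θ : E n)
    {g : E n → ℝ} {D : E n → E n} {K Cg CD : ℝ} (hgm : Measurable g) (hDm : Measurable D)
    (hgb : ∀ x, |g x| ≤ Cg) (hDb : ∀ x, ‖D x‖ ≤ CD)
    (hT : ∀ x z, g x ≤ g z + ⟪D z, x - z⟫_ℝ + K * ‖x - z‖ ^ 2)
    {t σ : ℝ} (h0 : 0 < t) (h1 : t < 1) (hσ : σ = s * t - 2 * K * (1 - t)) (hσ0 : 0 < σ) :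
    (∫ x, exp (g x / t) ∂(tilt μ s θ)) ^ t ≤
      ∫ x, exp (g x + (1 - t) * ‖D x‖ ^ 2 / (2 * σ)) ∂(tilt μ s θ) := by
  have hprob := plc_tilt_prob (μ := μ) hs θ
  have hεpos : 0 < 1 - t := by linarith
  have hψm := plc_psi_measurable (μ := μ) hρ s θ
  have hD2m : Measurable fun x => ‖D x‖ ^ 2 := hDm.norm.pow_const 2
  have hm1 : Measurable fun x => exp (g x / t) := (hgm.div_const t).exp
  have hm3 : Measurable fun x => exp (g x + (1 - t) * ‖D x‖ ^ 2 / (2 * σ)) :=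
    (hgm.add ((hD2m.const_mul _).div_const _)).exp
  have hb1 : ∀ x, exp (g x / t) ≤ exp (Cg / t) := fun x =>
    exp_le_exp.mpr (div_le_div_of_nonneg_right ((le_abs_self _).trans (hgb x)) h0.le)
  have hb3 : ∀ x, exp (g x + (1 - t) * ‖D x‖ ^ 2 / (2 * σ)) ≤
      exp (Cg + (1 - t) * CD ^ 2 / (2 * σ)) := by
    intro x
    refine exp_le_exp.mpr (add_le_add ((le_abs_self _).trans (hgb x)) ?_)
    refine div_le_div_of_nonneg_right ?_ (by positivity)
    refine mul_le_mul_of_nonneg_left ?_ hεpos.le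
    exact pow_le_pow_left₀ (norm_nonneg _) (hDb x) 2
  have e1 := plc_lintegral (μ := μ) hρ hμ hs θ hm1 (fun x => (exp_pos _).le) hb1
  have e3 := plc_lintegral (μ := μ) hρ hμ hs θ hm3 (fun x => (exp_pos _).le) hb3
  have e2 := plc_lintegral (μ := μ) hρ hμ hs θ (h := fun _ => (1 : ℝ)) measurable_const
    (fun _ => zero_le_one) (fun _ => le_refl (1 : ℝ))
  have hone : ∫ x, (1 : ℝ) ∂(tilt μ s θ) = 1 := by simp
  rw [hone, ENNReal.ofReal_one] at e2
  have hPL := pl_E (n := n) (t := t)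
    (f := fun x => ENNReal.ofReal (exp (g x / t) * plcPsi ρ μ s θ x))
    (g := fun x => ENNReal.ofReal (1 * plcPsi ρ μ s θ x))
    (h := fun x => ENNReal.ofReal (exp (g x + (1 - t) * ‖D x‖ ^ 2 / (2 * σ)) * plcPsi ρ μ s θ x))
    (hm1.mul hψm).ennreal_ofReal (measurable_const.mul hψm).ennreal_ofReal
    (hm3.mul hψm).ennreal_ofReal h0 h1 ?_
  · rw [e1, e2, e3, ENNReal.one_rpow, mul_one,
      ENNReal.ofReal_rpow_of_nonneg (integral_nonneg fun x => (exp_pos _).le) h0.le,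
      ENNReal.ofReal_le_ofReal_iff (integral_nonneg fun x => (exp_pos _).le)] at hPL
    exact hPL
  · intro x y
    have hψx := plc_psi_nonneg (μ := μ) hρ hs θ x
    have hψy := plc_psi_nonneg (μ := μ) hρ hs θ y
    have hA : 0 ≤ exp (g x / t) * plcPsi ρ μ s θ x := mul_nonneg (exp_pos _).le hψx
    have hB : 0 ≤ 1 * plcPsi ρ μ s θ y := by linarith
    rw [ENNReal.ofReal_rpow_of_nonneg hA h0.le, ENNReal.ofReal_rpow_of_nonneg hB hεpos.le,
      ← ENNReal.ofReal_mul (rpow_nonneg hA _)]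
    exact ENNReal.ofReal_le_ofReal (plc_pointwise hρ hs θ hT h0 h1 hσ hσ0 x y)

/-- Bobkov-Ledoux log-Sobolev for the tilted measure, for `e^g`, abstract gradient `D`. -/
theorem lsi_tilt {ρ : E n → ℝ} (hρ : LC ρ) {μ : Measure (E n)} [IsProbabilityMeasure μ]
    (hμ : μ = volume.withDensity (fun x => ENNReal.ofReal (ρ x)))
    {s : ℝ} (hs : 0 < s) (θ : E n)
    {g : E n → ℝ} {D : E n → E n} {K Cg CD : ℝ} (hgm : Measurable g) (hDm : Measurable D)
    (hgb : ∀ x, |g x| ≤ Cg) (hDb : ∀ x, ‖D x‖ ≤ CD)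
    (hT : ∀ x z, g x ≤ g z + ⟪D z, x - z⟫_ℝ + K * ‖x - z‖ ^ 2) :
    ∫ x, g x * exp (g x) ∂(tilt μ s θ)
      - (∫ x, exp (g x) ∂(tilt μ s θ)) * log (∫ x, exp (g x) ∂(tilt μ s θ))
      ≤ (1 / (2 * s)) * ∫ x, ‖D x‖ ^ 2 * exp (g x) ∂(tilt μ s θ) := by
  have hprob := plc_tilt_prob (μ := μ) hs θ
  set ν := tilt μ s θ with hν
  have hCD : 0 ≤ CD := (norm_nonneg _).trans (hDb 0)
  have hCg : 0 ≤ Cg := (abs_nonneg _).trans (hgb 0)
  have hD2m : Measurable fun x => ‖D x‖ ^ 2 := hDm.norm.pow_const 2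
  have hD4m : Measurable fun x => ‖D x‖ ^ 4 := hDm.norm.pow_const 4
  have hEm : Measurable fun x => exp (g x) := hgm.exp
  have hEb : ∀ x, exp (g x) ≤ exp Cg := fun x => exp_le_exp.mpr ((le_abs_self _).trans (hgb x))
  have hD2b : ∀ x, ‖D x‖ ^ 2 ≤ CD ^ 2 := fun x => pow_le_pow_left₀ (norm_nonneg _) (hDb x) 2
  have hD4b : ∀ x, ‖D x‖ ^ 4 ≤ CD ^ 4 := fun x => pow_le_pow_left₀ (norm_nonneg _) (hDb x) 4
  have bdd : ∀ {h : E n → ℝ} (C : ℝ), Measurable h → (∀ x, |h x| ≤ C) → Integrable h ν := by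
    intro h C hm hb
    exact Integrable.of_bound hm.aestronglyMeasurable C
      (Filter.Eventually.of_forall fun x => by simpa using hb x)
  have iE : Integrable (fun x => exp (g x)) ν := bdd (exp Cg) hEm (fun x => by
    rw [abs_of_pos (exp_pos _)]
    exact hEb x)
  have iG : Integrable (fun x => g x * exp (g x)) ν := bdd (Cg * exp Cg) (hgm.mul hEm) (fun x => by
    rw [abs_mul, abs_of_pos (exp_pos (g x))]
    exact mul_le_mul (hgb x) (hEb x) (exp_pos _).le hCg)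
  have iJ : Integrable (fun x => ‖D x‖ ^ 2 * exp (g x)) ν :=
    bdd (CD ^ 2 * exp Cg) (hD2m.mul hEm) (fun x => by
      rw [abs_mul, abs_of_pos (exp_pos (g x)), abs_of_nonneg (by positivity)]
      exact mul_le_mul (hD2b x) (hEb x) (exp_pos _).le (by positivity))
  have iQ : Integrable (fun x => ‖D x‖ ^ 4 * exp (g x)) ν :=
    bdd (CD ^ 4 * exp Cg) (hD4m.mul hEm) (fun x => by
      rw [abs_mul, abs_of_pos (exp_pos (g x)), abs_of_nonneg (by positivity)]
      exact mul_le_mul (hD4b x) (hEb x) (exp_pos _).le (by positivity))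
  set m := ∫ x, exp (g x) ∂ν with hm
  set n₁ := ∫ x, g x * exp (g x) ∂ν with hn₁
  set J := ∫ x, ‖D x‖ ^ 2 * exp (g x) ∂ν with hJ
  set Q := ∫ x, ‖D x‖ ^ 4 * exp (g x) ∂ν with hQ
  have hmpos : 0 < m := integral_exp_pos iE
  let σ : ℝ → ℝ := fun ε => s * (1 - ε) - 2 * K * ε
  let f : ℝ → ℝ := fun ε => m + ε / (1 - ε) * n₁
  let L : ℝ → ℝ := fun ε => f ε ^ (1 - ε)
  let R : ℝ → ℝ := fun ε => m + (ε * (J / (2 * σ ε)) + ε ^ 2 * (Q / (2 * σ ε) ^ 2))
  have hσ0 : σ 0 = s := by simp [σ]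
  have hσc : Continuous σ := by
    simp only [σ]
    fun_prop
  have hf0 : f 0 = m := by simp [f]
  have hfc : ContinuousAt f 0 := by
    simp only [f]
    refine continuousAt_const.add (ContinuousAt.mul (ContinuousAt.div continuousAt_id ?_ ?_)
      continuousAt_const)
    · fun_prop
    · norm_num
  -- derivatives
  have dσ : HasDerivAt σ (-s - 2 * K) 0 := by
    have h1 : HasDerivAt (fun ε : ℝ => s * (1 - ε)) (s * (-1)) 0 :=
      ((hasDerivAt_id (0 : ℝ)).const_sub 1).const_mul s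
    have h2 : HasDerivAt (fun ε : ℝ => 2 * K * ε) (2 * K * 1) 0 :=
      (hasDerivAt_id (0 : ℝ)).const_mul (2 * K)
    exact (h1.fun_sub h2).congr_deriv (by ring)
  have df : HasDerivAt f n₁ 0 := by
    have h1 : HasDerivAt (fun ε : ℝ => ε / (1 - ε)) 1 0 := by
      have := (hasDerivAt_id' (0 : ℝ)).fun_div ((hasDerivAt_id' (0 : ℝ)).const_sub 1)
        (by norm_num : (1 : ℝ) - 0 ≠ 0)
      exact this.congr_deriv (by simp)
    have h2 := (h1.mul_const n₁).const_add m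
    simpa [f] using h2
  have dL : HasDerivAt L (n₁ - m * log m) 0 := by
    have h1 : HasDerivAt (fun ε : ℝ => 1 - ε) (-1) 0 := (hasDerivAt_id (0 : ℝ)).const_sub 1
    have h2 := df.rpow h1 (by rw [hf0]; exact hmpos)
    refine h2.congr_deriv ?_
    simp [hf0]
    ring
  have hs2 : 2 * σ 0 ≠ 0 := by
    rw [hσ0]
    positivity
  have dR : HasDerivAt R (J / (2 * s)) 0 := by
    have du : HasDerivAt (fun ε => J / (2 * σ ε)) _ 0 :=
      (hasDerivAt_const (0 : ℝ) J).div (dσ.const_mul 2) hs2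
    have dv : HasDerivAt (fun ε => Q / (2 * σ ε) ^ 2) _ 0 :=
      (hasDerivAt_const (0 : ℝ) Q).div ((dσ.const_mul 2).pow 2) (pow_ne_zero 2 hs2)
    have h1 := (hasDerivAt_id' (0 : ℝ)).fun_mul du
    have h2 := (hasDerivAt_pow 2 (0 : ℝ)).fun_mul dv
    have h3 := (h1.fun_add h2).const_add m
    refine h3.congr_deriv ?_
    simp [hσ0]
  have h0 : L 0 = R 0 := by
    simp [L, R, hf0]
  -- the eventual inequality
  have hle : ∀ᶠ ε in 𝓝[>] (0 : ℝ), L ε ≤ R ε := by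
    have ev1 : ∀ᶠ ε in 𝓝[>] (0 : ℝ), ε < 1 :=
      mem_nhdsWithin_of_mem_nhds (Iio_mem_nhds (by norm_num))
    have ev2 : ∀ᶠ ε in 𝓝[>] (0 : ℝ), 0 < σ ε := by
      refine mem_nhdsWithin_of_mem_nhds ?_
      exact hσc.continuousAt.eventually (lt_mem_nhds (by rw [hσ0]; exact hs))
    have ev3 : ∀ᶠ ε in 𝓝[>] (0 : ℝ), 0 < f ε := by
      refine mem_nhdsWithin_of_mem_nhds ?_
      exact hfc.eventually (lt_mem_nhds (by rw [hf0]; exact hmpos))
    have ev4 : ∀ᶠ ε in 𝓝[>] (0 : ℝ), ε * CD ^ 2 / (2 * σ ε) < 1 := by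
      refine mem_nhdsWithin_of_mem_nhds ?_
      have hc : ContinuousAt (fun ε => ε * CD ^ 2 / (2 * σ ε)) 0 := by
        refine ContinuousAt.div (by fun_prop) (by fun_prop) hs2
      refine hc.eventually (gt_mem_nhds ?_)
      simp
    filter_upwards [ev1, ev2, ev3, ev4, self_mem_nhdsWithin] with ε h1 h2 h3 h4 hpos
    have hεpos : (0 : ℝ) < ε := hpos
    have ht0 : 0 < 1 - ε := by linarith
    have ht1 : 1 - ε < 1 := by linarith
    have hσe : σ ε = s * (1 - ε) - 2 * K * (1 - (1 - ε)) := by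
      simp [σ]
    have hstep := plc_step hρ hμ hs θ hgm hDm hgb hDb hT ht0 ht1 hσe h2
    have heps : (1 : ℝ) - (1 - ε) = ε := by ring
    rw [heps] at hstep
    -- lower bound
    have hlow : f ε ≤ ∫ x, exp (g x / (1 - ε)) ∂ν := by
      have hint : Integrable (fun x => exp (g x / (1 - ε))) ν :=
        bdd (exp (Cg / (1 - ε))) (hgm.div_const _).exp (fun x => by
          rw [abs_of_pos (exp_pos _)]
          exact exp_le_exp.mpr (div_le_div_of_nonneg_right ((le_abs_self _).trans (hgb x)) ht0.le))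
      have hfe : f ε = ∫ x, (exp (g x) + ε / (1 - ε) * (g x * exp (g x))) ∂ν := by
        rw [integral_add iE (iG.const_mul _), integral_const_mul]
      rw [hfe]
      refine integral_mono (iE.add (iG.const_mul _)) hint fun x => ?_
      have e1 : g x / (1 - ε) = g x + ε / (1 - ε) * g x := by
        field_simp
        ring
      simp only
      rw [e1, exp_add]
      have e2 := add_one_le_exp (ε / (1 - ε) * g x)
      have e3 := mul_le_mul_of_nonneg_left e2 (exp_pos (g x)).le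
      calc _ = exp (g x) * (ε / (1 - ε) * g x + 1) := by ring
        _ ≤ _ := e3
    -- upper bound
    have hup : ∫ x, exp (g x + ε * ‖D x‖ ^ 2 / (2 * σ ε)) ∂ν ≤ R ε := by
      have hRe : R ε = ∫ x, (exp (g x) + ε * (‖D x‖ ^ 2 * exp (g x) / (2 * σ ε)) +
          ε ^ 2 * (‖D x‖ ^ 4 * exp (g x) / (2 * σ ε) ^ 2)) ∂ν := by
        have i2 : Integrable (fun x => ε * (‖D x‖ ^ 2 * exp (g x) / (2 * σ ε))) ν :=
          (iJ.div_const _).const_mul _
        have i3 : Integrable (fun x => ε ^ 2 * (‖D x‖ ^ 4 * exp (g x) / (2 * σ ε) ^ 2)) ν :=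
          (iQ.div_const _).const_mul _
        have i12 : Integrable (fun x => exp (g x) + ε * (‖D x‖ ^ 2 * exp (g x) / (2 * σ ε))) ν :=
          iE.add i2
        rw [integral_add i12 i3, integral_add iE i2, integral_const_mul, integral_const_mul,
          integral_div, integral_div]
        exact (add_assoc _ _ _).symm
      rw [hRe]
      have hcomb : Integrable (fun x => exp (g x) + ε * (‖D x‖ ^ 2 * exp (g x) / (2 * σ ε)) +
          ε ^ 2 * (‖D x‖ ^ 4 * exp (g x) / (2 * σ ε) ^ 2)) ν :=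
        (iE.add ((iJ.div_const _).const_mul _)).add ((iQ.div_const _).const_mul _)
      have hint : Integrable (fun x => exp (g x + ε * ‖D x‖ ^ 2 / (2 * σ ε))) ν :=
        bdd (exp (Cg + ε * CD ^ 2 / (2 * σ ε)))
          (hgm.add ((hD2m.const_mul _).div_const _)).exp (fun x => by
            rw [abs_of_pos (exp_pos _)]
            refine exp_le_exp.mpr (add_le_add ((le_abs_self _).trans (hgb x)) ?_)
            refine div_le_div_of_nonneg_right ?_ (by positivity)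
            exact mul_le_mul_of_nonneg_left (hD2b x) hεpos.le)
      refine integral_mono hint hcomb fun x => ?_
      simp only
      set u := ε * ‖D x‖ ^ 2 / (2 * σ ε) with hu
      have hu0 : 0 ≤ u := by positivity
      have hu1 : u ≤ 1 := by
        refine le_trans ?_ h4.le
        refine div_le_div_of_nonneg_right ?_ (by positivity)
        exact mul_le_mul_of_nonneg_left (hD2b x) hεpos.le
      have hb : exp u ≤ 1 + u + u ^ 2 := by
        have := Real.abs_exp_sub_one_sub_id_le (x := u) (by rw [abs_of_nonneg hu0]; exact hu1)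
        have h5 := (abs_le.mp this).2
        linarith
      rw [exp_add]
      have hb' := mul_le_mul_of_nonneg_left hb (exp_pos (g x)).le
      calc _ ≤ _ := hb'
        _ = _ := by
          rw [hu]
          field_simp
    calc L ε = f ε ^ (1 - ε) := rfl
      _ ≤ (∫ x, exp (g x / (1 - ε)) ∂ν) ^ (1 - ε) := rpow_le_rpow h3.le hlow ht0.le
      _ ≤ _ := hstep
      _ ≤ R ε := hup
  have hfin := plc_deriv_compare dL dR h0 hle
  calc n₁ - m * log m ≤ J / (2 * s) := hfin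
    _ = 1 / (2 * s) * J := by ring

end Vale.Agent.Lib.P245
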